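import Vale.Agent.P065.H930.Block
import Vale.Agent.P065.UB.H415.CherDefs

/-!
# P065, upper bound: the block lemma for exactly collinear apexes (helper930)

`A` = points seen from `c` in a sector, all on one side of `c`; `z' = prj e0 c z` is the point with
the abscissa of `z` on the line of slope `e0` through `c`.
-/

set_option autoImplicit false

namespace Vale.Agent.P065.H930

open Finset Vale.Agent.P065.UB Vale.Agent.P065.UB.RankAux Vale.Agent.P065.H183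
open Vale.Agent.P065.UB.H415 (prj)

/-- slope from a point of the line of slope `e0` through `c` to `b` -/
lemma sl_line (e0 : ℝ) (c z b : Pt) (h : z.1 ≠ b.1) :
    sl (prj e0 c z) b = e0 + (c.2 + e0 * (b.1 - c.1) - b.2) / (z.1 - b.1) := by
  have h1 : z.1 - b.1 ≠ 0 := sub_ne_zero.2 h
  have h2 : b.1 - z.1 ≠ 0 := sub_ne_zero.2 (Ne.symm h)
  unfold sl prj
  rw [eq_comm, ← neg_sub b.1 z.1]
  field_simp
  ring

lemma div_le_neg {d x y : ℝ} (hx : x < 0) (hy : y < 0) (h : d * y ≤ d * x) : d / x ≤ d / y := by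
  have e : d / y - d / x = (d * x - d * y) / (x * y) := by
    have := hx.ne; have := hy.ne
    field_simp
  have : 0 ≤ (d * x - d * y) / (x * y) :=
    div_nonneg (by linarith) (mul_pos_of_neg_of_neg hx hy).le
  linarith

/-- monotonicity of the label along the line -/
lemma between {d x1 x0 x2 e0 : ℝ} {J : Set ℝ} (hJ : J.OrdConnected) (he0 : e0 ∉ J) (h01 : x1 ≤ x0)
    (h02 : x0 ≤ x2) (h1 : x1 ≠ 0) (h2 : x2 ≠ 0) (hJ1 : e0 + d / x1 ∈ J) (hJ2 : e0 + d / x2 ∈ J) :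
    x0 ≠ 0 ∧ e0 + d / x0 ∈ J := by
  have hd : d ≠ 0 := by
    rintro rfl
    simp only [zero_div, add_zero] at hJ1
    exact he0 hJ1
  rcases lt_or_gt_of_ne h1 with s1 | s1
  · rcases lt_or_gt_of_ne h2 with s2 | s2
    · -- both negative
      have s0 : x0 < 0 := lt_of_le_of_lt h02 s2
      refine ⟨s0.ne, ?_⟩
      rcases lt_or_gt_of_ne hd with hd' | hd'
      · -- `d < 0`: `d / x` is increasing
        have a1 : d / x1 ≤ d / x0 := by
          exact div_le_neg s1 s0 (by nlinarith)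
        have a2 : d / x0 ≤ d / x2 := by
          exact div_le_neg s0 s2 (by nlinarith)
        exact hJ.out hJ1 hJ2 ⟨by linarith, by linarith⟩
      · have a1 : d / x0 ≤ d / x1 := by
          exact div_le_neg s0 s1 (by nlinarith)
        have a2 : d / x2 ≤ d / x0 := by
          exact div_le_neg s2 s0 (by nlinarith)
        exact hJ.out hJ2 hJ1 ⟨by linarith, by linarith⟩
    · exfalso
      rcases lt_or_gt_of_ne hd with hd' | hd'
      · have a1 : 0 < d / x1 := div_pos_of_neg_of_neg hd' s1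
        have a2 : d / x2 < 0 := div_neg_of_neg_of_pos hd' s2
        exact he0 (hJ.out hJ2 hJ1 ⟨by linarith, by linarith⟩)
      · have a1 : d / x1 < 0 := div_neg_of_pos_of_neg hd' s1
        have a2 : 0 < d / x2 := div_pos hd' s2
        exact he0 (hJ.out hJ1 hJ2 ⟨by linarith, by linarith⟩)
  · have s0 : 0 < x0 := lt_of_lt_of_le s1 h01
    have s2 : 0 < x2 := lt_of_lt_of_le s0 h02
    refine ⟨s0.ne', ?_⟩
    rcases lt_or_gt_of_ne hd with hd' | hd'
    · have a1 : d / x1 ≤ d / x0 := by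
        rw [div_le_div_iff₀ s1 s0]; nlinarith
      have a2 : d / x0 ≤ d / x2 := by
        rw [div_le_div_iff₀ s0 s2]; nlinarith
      exact hJ.out hJ1 hJ2 ⟨by linarith, by linarith⟩
    · have a1 : d / x0 ≤ d / x1 := by
        rw [div_le_div_iff₀ s0 s1]; nlinarith
      have a2 : d / x2 ≤ d / x0 := by
        rw [div_le_div_iff₀ s2 s0]; nlinarith
      exact hJ.out hJ2 hJ1 ⟨by linarith, by linarith⟩

open Classical in
/-- the sector of `c` with slopes in `[α, β]`, on the side `σ` -/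
noncomputable def Sect (Q : Finset Pt) (c : Pt) (α β σ : ℝ) : Finset Pt :=
  {p ∈ Q | 0 < σ * (p.1 - c.1) ∧ α ≤ sl c p ∧ sl c p ≤ β}

lemma sect_low {c p : Pt} {α σ : ℝ} (h : 0 < σ * (p.1 - c.1)) :
    α ≤ sl c p ↔ 0 ≤ σ * (p.2 - c.2 - α * (p.1 - c.1)) := by
  have h0 : p.1 - c.1 ≠ 0 := by
    intro h0; rw [h0, mul_zero] at h; exact lt_irrefl _ h
  have hs : σ ≠ 0 := by
    intro h0; rw [h0, zero_mul] at h; exact lt_irrefl _ h
  have e : sl c p - α = (σ * (p.2 - c.2 - α * (p.1 - c.1))) / (σ * (p.1 - c.1)) := by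
    unfold sl; field_simp
  constructor
  · intro h1
    have h2 : 0 ≤ sl c p - α := by linarith
    rw [e, div_nonneg_iff] at h2
    rcases h2 with h2 | h2
    · exact h2.1
    · linarith [h2.2]
  · intro h1
    have h2 : 0 ≤ sl c p - α := by rw [e]; exact div_nonneg h1 h.le
    linarith

lemma sect_up {c p : Pt} {β σ : ℝ} (h : 0 < σ * (p.1 - c.1)) :
    sl c p ≤ β ↔ σ * (p.2 - c.2 - β * (p.1 - c.1)) ≤ 0 := by
  have h0 : p.1 - c.1 ≠ 0 := by
    intro h0; rw [h0, mul_zero] at h; exact lt_irrefl _ h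
  have hs : σ ≠ 0 := by
    intro h0; rw [h0, zero_mul] at h; exact lt_irrefl _ h
  have e : β - sl c p = (-(σ * (p.2 - c.2 - β * (p.1 - c.1)))) / (σ * (p.1 - c.1)) := by
    unfold sl; field_simp; ring
  constructor
  · intro h1
    have h2 : 0 ≤ β - sl c p := by linarith
    rw [e, div_nonneg_iff] at h2
    rcases h2 with h2 | h2
    · linarith [h2.1]
    · linarith [h2.2]
  · intro h1
    have h2 : 0 ≤ β - sl c p := by rw [e]; exact div_nonneg (by linarith) h.le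
    linarith

/-- the five half-planes -/
noncomputable def hp (c : Pt) (α β σ x y : ℝ) : ℕ → Set Pt := fun i =>
  if i = 0 then {p : Pt | σ * c.1 < σ * p.1 + 0 * p.2}
  else if i = 1 then {p : Pt | σ * (c.2 - α * c.1) ≤ (-(σ * α)) * p.1 + σ * p.2}
  else if i = 2 then {p : Pt | (-(σ * β)) * p.1 + σ * p.2 ≤ σ * (c.2 - β * c.1)}
  else if i = 3 then {p : Pt | x ≤ 1 * p.1 + 0 * p.2}
  else {p : Pt | 1 * p.1 + 0 * p.2 ≤ y}

lemma hp_half (c : Pt) (α β σ x y : ℝ) (i : ℕ) : IsHalf (hp c α β σ x y i) := by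
  unfold hp
  split_ifs
  · exact isHalf_gt _ _ _
  · exact isHalf_ge _ _ _
  · exact isHalf_le _ _ _
  · exact isHalf_ge _ _ _
  · exact isHalf_le _ _ _

lemma hp_all (c : Pt) (α β σ x y : ℝ) (p : Pt) :
    (∀ i ∈ Finset.range 5, p ∈ hp c α β σ x y i) ↔
      (0 < σ * (p.1 - c.1) ∧ 0 ≤ σ * (p.2 - c.2 - α * (p.1 - c.1)) ∧
        σ * (p.2 - c.2 - β * (p.1 - c.1)) ≤ 0) ∧ x ≤ p.1 ∧ p.1 ≤ y := by
  have e0 : p ∈ hp c α β σ x y 0 ↔ 0 < σ * (p.1 - c.1) := by
    unfold hp; simp only [if_true, Set.mem_ofPred_eq]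
    constructor <;> intro h <;> nlinarith
  have e1 : p ∈ hp c α β σ x y 1 ↔ 0 ≤ σ * (p.2 - c.2 - α * (p.1 - c.1)) := by
    unfold hp; simp only [one_ne_zero, if_false, if_true, Set.mem_ofPred_eq]
    constructor <;> intro h <;> nlinarith
  have e2 : p ∈ hp c α β σ x y 2 ↔ σ * (p.2 - c.2 - β * (p.1 - c.1)) ≤ 0 := by
    unfold hp
    rw [if_neg (by norm_num), if_neg (by norm_num), if_pos rfl, Set.mem_ofPred_eq]
    constructor <;> intro h <;> nlinarith
  have e3 : p ∈ hp c α β σ x y 3 ↔ x ≤ p.1 := by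
    unfold hp
    rw [if_neg (by norm_num), if_neg (by norm_num), if_neg (by norm_num), if_pos rfl,
      Set.mem_ofPred_eq]
    constructor <;> intro h <;> linarith
  have e4 : p ∈ hp c α β σ x y 4 ↔ p.1 ≤ y := by
    unfold hp
    rw [if_neg (by norm_num), if_neg (by norm_num), if_neg (by norm_num), if_neg (by norm_num),
      Set.mem_ofPred_eq]
    constructor <;> intro h <;> linarith
  rw [← e0, ← e1, ← e2, ← e3, ← e4]
  constructor
  · intro h
    exact ⟨⟨h 0 (by simp), h 1 (by simp), h 2 (by simp)⟩, h 3 (by simp), h 4 (by simp)⟩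
  · rintro ⟨⟨h0, h1, h2⟩, h3, h4⟩ i hi
    rw [Finset.mem_range] at hi
    interval_cases i <;> assumption

open Classical in
/-- **GROUP**: the data of the block lemma for collinear apexes -/
theorem group {K lam : ℝ} {Q : Finset Pt} {W : Finset ℕ} {I : ℕ → Set ℝ} {R : ℕ → Finset Pt}
    (hV : JView K lam Q W I R) (c : Pt) (e0 α β σ : ℝ) (A B : Finset Pt)
    (E : Finset (Pt × Pt)) (lab : Pt → Pt → ℕ) (Wd : Finset ℕ) (J : ℕ → Set ℝ) (μ : ℝ)
    (hAQ : A ⊆ Q) (hA : ∀ a ∈ A, 0 < σ * (a.1 - c.1) ∧ α ≤ sl c a ∧ sl c a ≤ β) (hWd : Wd ⊆ W)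
    (hJ : ∀ w ∈ Wd, (J w).OrdConnected)
    (hJd : ∀ w ∈ Wd, ∀ w' ∈ Wd, w ≠ w' → Disjoint (J w) (J w'))
    (he0 : ∀ w ∈ Wd, e0 ∉ J w) (hE : E ⊆ A ×ˢ B)
    (hlab : ∀ p ∈ E, lab p.1 p.2 ∈ Wd ∧ p.1 ∈ R (lab p.1 p.2) ∧ p.1.1 ≠ p.2.1 ∧
      sl (prj e0 c p.1) p.2 ∈ J (lab p.1 p.2))
    (hμ0 : 0 ≤ μ)
    (hμ : ∀ a ∈ A, ∀ w ∈ Wd, ∀ T : Finset Pt, (∀ b ∈ T, (a, b) ∈ E ∧ lab a b = w) →
      (#T : ℝ) ≤ μ) :
    BlockData A Prod.fst B E lab Wd R (Sect Q c α β σ) Prod.fst μ 1 (216 * K * #Q / lam)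
      (216 * K * #Q ^ 2) := by
  have hK := hV.two
  have hK0 : 0 < K := by linarith
  have hl := hV.one
  have hl0 : 0 < lam := by linarith
  refine
    { inj := fun a ha b hb h => hV.xinj a (hAQ ha) b (hAQ hb) h
      sub := hE
      mem := fun p hp => (hlab p hp).1
      rich := fun p hp => (hlab p hp).2.1
      μ0 := hμ0
      h0 := zero_le_one
      S1 := by positivity
      S2 := by positivity
      mult := hμ
      hull := ?_
      star := ?_ }
  · -- hull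
    intro b hb a ha T hT
    have key : ∀ w ∈ T, sl (prj e0 c a) b ∈ J w := by
      intro w hw
      obtain ⟨hwW, haH⟩ := hT w hw
      unfold Hb at haH
      obtain ⟨_, a1, ha1, a2, ha2, h1, h2⟩ := mem_filter.1 haH
      obtain ⟨_, ha1E, ha1w⟩ := mem_Fb.1 ha1
      obtain ⟨_, ha2E, ha2w⟩ := mem_Fb.1 ha2
      obtain ⟨_, _, n1, s1⟩ := hlab _ ha1E
      obtain ⟨_, _, n2, s2⟩ := hlab _ ha2E
      simp only at n1 n2 s1 s2
      rw [ha1w, sl_line e0 c a1 b n1] at s1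
      rw [ha2w, sl_line e0 c a2 b n2] at s2
      obtain ⟨g1, g2⟩ := between (hJ w hwW) (he0 w hwW) (x0 := a.1 - b.1) (by linarith)
        (by linarith) (sub_ne_zero.2 n1) (sub_ne_zero.2 n2) s1 s2
      rw [sl_line e0 c a b (sub_ne_zero.1 g1)]
      exact g2
    have : #T ≤ 1 := by
      rw [Finset.card_le_one]
      intro w hw w' hw'
      by_contra hne
      exact Set.disjoint_left.1 (hJd w (hT w hw).1 w' (hT w' hw').1 hne) (key w hw) (key w' hw')
    exact_mod_cast this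
  · intro x y Rx Zx hRx hZx
    have hZ : ∀ z, z ∈ Zx ↔ z ∈ Q ∧ ∀ i ∈ Finset.range 5, z ∈ hp c α β σ x y i := by
      intro z
      rw [hZx, hp_all]
      unfold Sect
      rw [mem_filter]
      constructor
      · rintro ⟨⟨q1, q2, q3, q4⟩, q5, q6⟩
        exact ⟨q1, ⟨q2, (sect_low q2).1 q3, (sect_up q2).1 q4⟩, q5, q6⟩
      · rintro ⟨q1, ⟨q2, q3, q4⟩, q5, q6⟩
        exact ⟨⟨q1, q2, (sect_low q2).2 q3, (sect_up q2).2 q4⟩, q5, q6⟩
    have hst := hV.star (Finset.range 5) (hp c α β σ x y) (fun i _ => hp_half c α β σ x y i) Zx hZ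
    rw [Finset.card_range] at hst
    have h1 : ∀ w ∈ Wd, (#(Rx w) : ℝ) ^ 3 ≤ (#(R w ∩ Zx) : ℝ) ^ 3 := by
      intro w _
      have : #(Rx w) ≤ #(R w ∩ Zx) := by
        apply card_le_card
        intro a ha
        obtain ⟨q1, q2, q3, q4⟩ := (hRx w a).1 ha
        rw [mem_inter]
        refine ⟨q2, (hZx a).2 ⟨?_, q3, q4⟩⟩
        unfold Sect
        exact mem_filter.2 ⟨hAQ q1, hA a q1⟩
      gcongr
    have h2 : ∑ w ∈ Wd, (#(Rx w) : ℝ) ^ 3 ≤ ∑ w ∈ W, (#(R w ∩ Zx) : ℝ) ^ 3 :=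
      (sum_le_sum h1).trans (sum_le_sum_of_subset_of_nonneg hWd fun _ _ _ => by positivity)
    have h3 : lam * ∑ w ∈ Wd, (#(Rx w) : ℝ) ^ 3 ≤
        lam * (216 * K * #Q / lam * (#Zx : ℝ) ^ 2 + 216 * K * #Q ^ 2) := by
      calc lam * ∑ w ∈ Wd, (#(Rx w) : ℝ) ^ 3 ≤ lam * ∑ w ∈ W, (#(R w ∩ Zx) : ℝ) ^ 3 := by gcongr
        _ ≤ K * ((5 : ℕ) + 1 : ℝ) ^ 3 * (#Q * (#Zx : ℝ) ^ 2 + lam * (#Q : ℝ) ^ 2) := hst
        _ = lam * (216 * K * #Q / lam * (#Zx : ℝ) ^ 2 + 216 * K * #Q ^ 2) := by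
            push_cast; field_simp; ring
    exact le_of_mul_le_mul_left h3 hl0

end Vale.Agent.P065.H930
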