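import Mathlib

/-!
# P065, upper bound, block [BLOCK]: the abstract blocks + (STAR) lemma of [FLAG] and [P2] (helper930)

`A` = points on a line, ordered by `u`; `B` = second points; `E ⊆ A × B`; `win a b` = the window of
the pair; `Sec` = the points of the sector around the line, with coordinate `v`.
If (STAR) holds for the pieces of the sector, then few pairs `(a, b)` have a window which contains
many points of `A` seen from `b`.
-/

set_option autoImplicit false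

namespace Vale.Agent.P065.H930

open Finset

variable {α β γ ι : Type*}

section rank

open Classical in
/-- the rank of `a` in `A` -/
noncomputable def rk (A : Finset α) (u : α → ℝ) (a : α) : ℕ := #{x ∈ A | u x < u a}

lemma rk_mono (A : Finset α) (u : α → ℝ) {a b : α} (h : u a ≤ u b) : rk A u a ≤ rk A u b := by
  classical
  unfold rk
  apply card_le_card
  intro x hx
  rw [mem_filter] at hx ⊢
  exact ⟨hx.1, lt_of_lt_of_le hx.2 h⟩

lemma rk_lt {A : Finset α} {u : α → ℝ} {a b : α} (ha : a ∈ A) (h : u a < u b) :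
    rk A u a < rk A u b := by
  classical
  unfold rk
  apply card_lt_card
  rw [ssubset_iff_of_subset]
  · exact ⟨a, mem_filter.2 ⟨ha, h⟩, fun hx => lt_irrefl _ (mem_filter.1 hx).2⟩
  · intro x hx
    rw [mem_filter] at hx ⊢
    exact ⟨hx.1, hx.2.trans h⟩

lemma lt_of_rk {A : Finset α} {u : α → ℝ} {a b : α} (h : rk A u a < rk A u b) : u a < u b := by
  by_contra hc
  exact absurd (rk_mono A u (not_lt.1 hc)) (not_le.2 h)

lemma rk_inj {A : Finset α} {u : α → ℝ} (hu : ∀ a ∈ A, ∀ b ∈ A, u a = u b → a = b) {a b : α}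
    (ha : a ∈ A) (hb : b ∈ A) (h : rk A u a = rk A u b) : a = b := by
  rcases lt_trichotomy (u a) (u b) with h1 | h1 | h1
  · exact absurd h (rk_lt ha h1).ne
  · exact hu a ha b hb h1
  · exact absurd h (rk_lt hb h1).ne'

open Classical in
lemma rk_sub (A : Finset α) (u : α → ℝ) {a b : α} :
    rk A u b ≤ rk A u a + #{x ∈ A | u a ≤ u x ∧ u x ≤ u b} := by
  unfold rk
  refine (card_le_card ?_).trans (card_union_le _ _)
  intro x hx
  rw [mem_filter] at hx
  rw [mem_union, mem_filter, mem_filter]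
  rcases lt_or_ge (u x) (u a) with h | h
  · exact Or.inl ⟨hx.1, h⟩
  · exact Or.inr ⟨hx.1, h, hx.2.le⟩

/-- block number -/
noncomputable def blk (A : Finset α) (u : α → ℝ) (b0 : ℕ) (a : α) : ℕ := rk A u a / b0

lemma blk_mono (A : Finset α) (u : α → ℝ) (b0 : ℕ) {a b : α} (h : u a ≤ u b) :
    blk A u b0 a ≤ blk A u b0 b := Nat.div_le_div_right (rk_mono A u h)

open Classical in
lemma card_blk {A : Finset α} {u : α → ℝ} (hu : ∀ a ∈ A, ∀ b ∈ A, u a = u b → a = b) {b0 : ℕ}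
    (hb : 0 < b0) (i : ℕ) : #{a ∈ A | blk A u b0 a = i} ≤ b0 := by
  calc #{a ∈ A | blk A u b0 a = i} ≤ #(Finset.Ico (i * b0) (i * b0 + b0)) := by
        refine card_le_card_of_injOn (rk A u) ?_ ?_
        · intro a ha
          have h2 := (mem_filter.1 ha).2
          unfold blk at h2
          rw [mem_coe, mem_Ico]
          have h3 := Nat.div_mul_le_self (rk A u a) b0
          have h4 := Nat.lt_div_mul_add (a := rk A u a) hb
          rw [h2] at h3 h4
          exact ⟨h3, h4⟩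
        · intro a ha b hb' h
          exact rk_inj hu (mem_filter.1 ha).1 (mem_filter.1 hb').1 h
    _ = b0 := by rw [Nat.card_Ico]; omega

open Classical in
/-- the number of blocks met by `F` -/
lemma card_blocks {A : Finset α} {u : α → ℝ} {b0 : ℕ} (hb : 0 < b0) (F H : Finset α)
    (hH : ∀ x ∈ A, (∃ a1 ∈ F, ∃ a2 ∈ F, u a1 ≤ u x ∧ u x ≤ u a2) → x ∈ H) :
    #(F.image (blk A u b0)) * b0 ≤ #H + 2 * b0 := by
  rcases F.eq_empty_or_nonempty with h0 | h0
  · subst h0; simp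
  obtain ⟨a1, ha1, h1⟩ := exists_min_image F u h0
  obtain ⟨a2, ha2, h2⟩ := exists_max_image F u h0
  have hsub : F.image (blk A u b0) ⊆ Finset.Icc (blk A u b0 a1) (blk A u b0 a2) := by
    intro i hi
    obtain ⟨a, ha, rfl⟩ := mem_image.1 hi
    exact mem_Icc.2 ⟨blk_mono A u b0 (h1 a ha), blk_mono A u b0 (h2 a ha)⟩
  have hc := card_le_card hsub
  rw [Nat.card_Icc] at hc
  have hr : rk A u a2 ≤ rk A u a1 + #H := (rk_sub A u (a := a1) (b := a2)).trans
    (Nat.add_le_add_left (card_le_card fun x hx => by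
      obtain ⟨hxA, hx1, hx2⟩ := mem_filter.1 hx
      exact hH x hxA ⟨a1, ha1, a2, ha2, hx1, hx2⟩) _)
  have e1 := Nat.div_mul_le_self (rk A u a2) b0
  have e2 := Nat.lt_div_mul_add (a := rk A u a1) hb
  have hle : blk A u b0 a1 ≤ blk A u b0 a2 := blk_mono A u b0 (h1 a2 ha2)
  unfold blk at *
  have h3 : #(F.image fun a => rk A u a / b0) * b0 ≤ (rk A u a2 / b0 + 1 - rk A u a1 / b0) * b0 :=
    Nat.mul_le_mul_right _ hc
  have h4 : (rk A u a2 / b0 + 1 - rk A u a1 / b0) * b0 + rk A u a1 / b0 * b0 =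
      rk A u a2 / b0 * b0 + b0 := by
    rw [← Nat.add_mul, Nat.sub_add_cancel (by omega)]; ring
  have h5 : #(F.image (fun a => rk A u a / b0)) * b0 ≤ #H + 2 * b0 := by omega
  exact h5

end rank

open Classical in
/-- the points of `A` seen from `b` through `w` -/
noncomputable def Fb (A : Finset α) (E : Finset (α × β)) (win : α → β → ι) (b : β) (w : ι) :
    Finset α := {a ∈ A | (a, b) ∈ E ∧ win a b = w}

open Classical in
/-- the points of `A` in the hull of `Fb` -/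
noncomputable def Hb (A : Finset α) (u : α → ℝ) (E : Finset (α × β)) (win : α → β → ι) (b : β)
    (w : ι) : Finset α :=
  {x ∈ A | ∃ a1 ∈ Fb A E win b w, ∃ a2 ∈ Fb A E win b w, u a1 ≤ u x ∧ u x ≤ u a2}

/-- the hypotheses of the block lemma -/
structure BlockData (A : Finset α) (u : α → ℝ) (B : Finset β) (E : Finset (α × β))
    (win : α → β → ι) (Wd : Finset ι) (Rr : ι → Finset α) (Sec : Finset γ) (v : γ → ℝ)
    (μ h S S0 : ℝ) : Prop where
  inj : ∀ a ∈ A, ∀ b ∈ A, u a = u b → a = b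
  sub : E ⊆ A ×ˢ B
  mem : ∀ p ∈ E, win p.1 p.2 ∈ Wd
  rich : ∀ p ∈ E, p.1 ∈ Rr (win p.1 p.2)
  μ0 : 0 ≤ μ
  h0 : 0 ≤ h
  S1 : 0 ≤ S
  S2 : 0 ≤ S0
  mult : ∀ a ∈ A, ∀ w ∈ Wd, ∀ T : Finset β, (∀ b ∈ T, (a, b) ∈ E ∧ win a b = w) → (#T : ℝ) ≤ μ
  hull : ∀ b ∈ B, ∀ a ∈ A, ∀ T : Finset ι, (∀ w ∈ T, w ∈ Wd ∧ a ∈ Hb A u E win b w) →
    (#T : ℝ) ≤ h
  star : ∀ x y : ℝ, ∀ (Rx : ι → Finset α) (Zx : Finset γ),
    (∀ w, ∀ a, a ∈ Rx w ↔ a ∈ A ∧ a ∈ Rr w ∧ x ≤ u a ∧ u a ≤ y) →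
    (∀ z, z ∈ Zx ↔ z ∈ Sec ∧ x ≤ v z ∧ v z ≤ y) →
    ∑ w ∈ Wd, (#(Rx w) : ℝ) ^ 3 ≤ S * (#Zx : ℝ) ^ 2 + S0

open Classical in
/-- one window at `b`: half of the points lie in blocks with many points -/
lemma half_in_blocks (A : Finset α) (u : α → ℝ) (F H : Finset α) (b0 : ℕ) (hb : 0 < b0)
    {s κ : ℝ} (hs : 1 ≤ s) (hκ : 1 ≤ κ) (hb2 : s ≤ 2 * b0)
    (hH : ∀ x ∈ A, (∃ a1 ∈ F, ∃ a2 ∈ F, u a1 ≤ u x ∧ u x ≤ u a2) → x ∈ H)
    (h1 : s ≤ #F) (h2 : (#F : ℝ) ≤ 2 * s) (h3 : (#H : ℝ) ≤ κ * #F) :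
    #F ≤ 2 * #{a ∈ F | s ≤ 12 * κ * #{x ∈ F | blk A u b0 x = blk A u b0 a}} := by
  set G : Finset α := {a ∈ F | s ≤ 12 * κ * #{x ∈ F | blk A u b0 x = blk A u b0 a}} with hG
  set G' : Finset α := {a ∈ F | ¬ s ≤ 12 * κ * #{x ∈ F | blk A u b0 x = blk A u b0 a}} with hG'
  have hsum : #G + #G' = #F := Finset.card_filter_add_card_filter_not _
  have hb0 : (0 : ℝ) < b0 := by exact_mod_cast hb
  have him : (#(F.image (blk A u b0)) : ℝ) ≤ 6 * κ := by
    have e := card_blocks (A := A) (u := u) hb F H hH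
    have e1 : (#(F.image (blk A u b0)) : ℝ) * b0 ≤ #H + 2 * b0 := by exact_mod_cast e
    have e2 : (#H : ℝ) ≤ 4 * κ * b0 := by
      calc (#H : ℝ) ≤ κ * #F := h3
        _ ≤ κ * (2 * s) := by gcongr
        _ ≤ κ * (2 * (2 * b0)) := by gcongr
        _ = 4 * κ * b0 := by ring
    have e3 : (#(F.image (blk A u b0)) : ℝ) * b0 ≤ (6 * κ) * b0 := by
      have : (2 : ℝ) * b0 ≤ 2 * κ * b0 := by nlinarith
      linarith
    exact le_of_mul_le_mul_right e3 hb0
  have hG'c : (#G' : ℝ) * (12 * κ) ≤ (6 * κ) * s := by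
    have e1 : #G' = ∑ i ∈ F.image (blk A u b0), #{a ∈ G' | blk A u b0 a = i} :=
      card_eq_sum_card_fiberwise fun a ha => mem_image_of_mem _ (mem_filter.1 ha).1
    have e2 : ∀ i ∈ F.image (blk A u b0), (#{a ∈ G' | blk A u b0 a = i} : ℝ) * (12 * κ) ≤ s := by
      intro i _
      rcases ({a ∈ G' | blk A u b0 a = i} : Finset α).eq_empty_or_nonempty with h0 | ⟨a, ha⟩
      · rw [h0]; simp only [card_empty, Nat.cast_zero, zero_mul]; linarith
      · obtain ⟨ha1, ha2⟩ := mem_filter.1 ha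
        have ha3 := (mem_filter.1 ha1).2
        rw [ha2] at ha3
        push Not at ha3
        have : (#{a ∈ G' | blk A u b0 a = i} : ℝ) ≤ #{x ∈ F | blk A u b0 x = i} := by
          exact_mod_cast card_le_card fun x hx =>
            mem_filter.2 ⟨(mem_filter.1 (mem_filter.1 hx).1).1, (mem_filter.1 hx).2⟩
        calc _ ≤ (#{x ∈ F | blk A u b0 x = i} : ℝ) * (12 * κ) := by gcongr
          _ = 12 * κ * #{x ∈ F | blk A u b0 x = i} := by ring
          _ ≤ s := ha3.le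
    calc (#G' : ℝ) * (12 * κ)
        = ∑ i ∈ F.image (blk A u b0), (#{a ∈ G' | blk A u b0 a = i} : ℝ) * (12 * κ) := by
          rw [e1]; push_cast; rw [sum_mul]
      _ ≤ ∑ i ∈ F.image (blk A u b0), s := sum_le_sum e2
      _ = #(F.image (blk A u b0)) * s := by rw [sum_const, nsmul_eq_mul]
      _ ≤ (6 * κ) * s := by gcongr
  have hG'' : (#G' : ℝ) ≤ s / 2 := by
    have hκ0 : 0 < κ := by linarith
    have : (#G' : ℝ) * (12 * κ) ≤ (s / 2) * (12 * κ) := by linarith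
    exact le_of_mul_le_mul_right this (by positivity)
  have hsum' : (#G : ℝ) + #G' = #F := by exact_mod_cast hsum
  have : (#F : ℝ) ≤ 2 * #G := by linarith
  exact_mod_cast this

section one

variable {A : Finset α} {u : α → ℝ} {B : Finset β} {E : Finset (α × β)} {win : α → β → ι}
  {Wd : Finset ι} {Rr : ι → Finset α} {Sec : Finset γ} {v : γ → ℝ} {μ h S S0 : ℝ}

lemma mem_Fb {b : β} {w : ι} {a : α} :
    a ∈ Fb A E win b w ↔ a ∈ A ∧ (a, b) ∈ E ∧ win a b = w := by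
  classical
  unfold Fb; rw [mem_filter]

open Classical in
/-- one dyadic class -/
lemma one_class (D : BlockData A u B E win Wd Rr Sec v μ h S S0) {s κ κ' : ℝ} (hs : 1 ≤ s)
    (hκ : 1 ≤ κ) (hκ' : 1 ≤ κ') :
    (#{p ∈ E | s ≤ #(Fb A E win p.2 (win p.1 p.2)) ∧ (#(Fb A E win p.2 (win p.1 p.2)) : ℝ) ≤ 2 * s ∧
        (#(Hb A u E win p.2 (win p.1 p.2)) : ℝ) ≤ κ * #(Fb A E win p.2 (win p.1 p.2))} : ℝ) ≤
      2 * (#B * #Sec / κ' + 1728 * κ ^ 3 * κ' ^ 2 * μ * #A * (S / s + S0 / s ^ 3)) := by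
  have hs0 : 0 < s := by linarith
  have hκ0 : 0 < κ := by linarith
  have hκ'0 : 0 < κ' := by linarith
  have hμ0 := D.μ0
  have hS1 := D.S1
  have hS2 := D.S2
  set b0 : ℕ := ⌊s⌋₊ with hb0
  have hb0pos : 0 < b0 := Nat.floor_pos.2 hs
  have hb1 : (b0 : ℝ) ≤ s := Nat.floor_le hs0.le
  have hb2 : s ≤ 2 * b0 := by
    have h1 : s < b0 + 1 := Nat.lt_floor_add_one s
    have h2 : (1 : ℝ) ≤ b0 := by exact_mod_cast hb0pos
    linarith
  have hb0R : (0 : ℝ) < b0 := by exact_mod_cast hb0pos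
  set P1 : Finset (α × β) := {p ∈ E | s ≤ #(Fb A E win p.2 (win p.1 p.2)) ∧
    (#(Fb A E win p.2 (win p.1 p.2)) : ℝ) ≤ 2 * s ∧
        (#(Hb A u E win p.2 (win p.1 p.2)) : ℝ) ≤ κ * #(Fb A E win p.2 (win p.1 p.2))} with hP1
  set P2 : Finset (α × β) := {p ∈ E | s ≤ 12 * κ *
    #{x ∈ Fb A E win p.2 (win p.1 p.2) | blk A u b0 x = blk A u b0 p.1}} with hP2
  -- step 1
  have h12 : #P1 ≤ 2 * #P2 := by
    have m1 : ∀ p ∈ P1, (p.2, win p.1 p.2) ∈ B ×ˢ Wd := fun p hp =>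
      mem_product.2 ⟨(mem_product.1 (D.sub (mem_filter.1 hp).1)).2, D.mem p (mem_filter.1 hp).1⟩
    have m2 : ∀ p ∈ P2, (p.2, win p.1 p.2) ∈ B ×ˢ Wd := fun p hp =>
      mem_product.2 ⟨(mem_product.1 (D.sub (mem_filter.1 hp).1)).2, D.mem p (mem_filter.1 hp).1⟩
    rw [card_eq_sum_card_fiberwise m1, card_eq_sum_card_fiberwise m2, mul_sum]
    apply sum_le_sum
    rintro ⟨b, w⟩ _
    rcases ({p ∈ P1 | (p.2, win p.1 p.2) = (b, w)} : Finset (α × β)).eq_empty_or_nonempty with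
      h0 | ⟨p, hp⟩
    · rw [h0]; simp
    obtain ⟨hp1, hp2⟩ := mem_filter.1 hp
    obtain ⟨hpE, q1, q2, q3⟩ := mem_filter.1 hp1
    rw [Prod.mk.injEq] at hp2
    rw [hp2.2, hp2.1] at q1 q2 q3
    have hh := half_in_blocks A u (Fb A E win b w) (Hb A u E win b w) b0 hb0pos hs hκ hb2
      (fun x hx hex => by unfold Hb; exact mem_filter.2 ⟨hx, hex⟩) q1 q2 q3
    have c1 : #{p ∈ P1 | (p.2, win p.1 p.2) = (b, w)} ≤ #(Fb A E win b w) := by
      refine card_le_card_of_injOn (fun p => p.1) ?_ ?_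
      · intro r hr
        obtain ⟨hr1, hr2⟩ := mem_filter.1 hr
        rw [Prod.mk.injEq] at hr2
        rw [mem_coe, mem_Fb]
        have hrE := (mem_filter.1 hr1).1
        refine ⟨(mem_product.1 (D.sub hrE)).1, ?_, ?_⟩
        · rw [← hr2.1]; exact hrE
        · have := hr2.2; rw [hr2.1] at this; exact this
      · intro r hr r' hr' he
        have e1 := (Prod.mk.injEq _ _ _ _ ▸ (mem_filter.1 hr).2 : r.2 = b ∧ win r.1 r.2 = w).1
        have e2 := (Prod.mk.injEq _ _ _ _ ▸ (mem_filter.1 hr').2 : r'.2 = b ∧ win r'.1 r'.2 = w).1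
        exact Prod.ext he (e1.trans e2.symm)
    have c2 : #{a ∈ Fb A E win b w | s ≤ 12 * κ *
        #{x ∈ Fb A E win b w | blk A u b0 x = blk A u b0 a}} ≤
        #{p ∈ P2 | (p.2, win p.1 p.2) = (b, w)} := by
      refine card_le_card_of_injOn (fun a => (a, b)) ?_ ?_
      · intro a ha
        obtain ⟨ha1, ha2⟩ := mem_filter.1 ha
        obtain ⟨haA, haE, haw⟩ := mem_Fb.1 ha1
        rw [mem_coe, mem_filter, hP2, mem_filter]
        refine ⟨⟨haE, ?_⟩, ?_⟩
        · simp only [haw]; exact ha2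
        · simp only [haw]
      · intro a _ a' _ he
        exact (Prod.mk.injEq _ _ _ _ ▸ he : a = a' ∧ b = b).1
    calc _ ≤ #(Fb A E win b w) := c1
      _ ≤ _ := hh
      _ ≤ _ := Nat.mul_le_mul_left 2 c2
  -- the pieces
  set cnt : ι → ℕ → Finset α := fun w i => {a ∈ A | a ∈ Rr w ∧ blk A u b0 a = i} with hcnt
  -- the interval of a block
  set Zi : ℕ → Finset γ := fun i => {z ∈ Sec | ∃ a1 ∈ A, ∃ a2 ∈ A, blk A u b0 a1 = i ∧
    blk A u b0 a2 = i ∧ u a1 ≤ v z ∧ v z ≤ u a2} with hZi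
  have hZdisj : ∀ i j : ℕ, i ≠ j → Disjoint (Zi i) (Zi j) := by
    have aux : ∀ i j : ℕ, i < j → Disjoint (Zi i) (Zi j) := by
      intro i j hij
      rw [Finset.disjoint_left]
      intro z hz hz'
      obtain ⟨_, a1, _, a2, _, _, h2, _, h4⟩ := mem_filter.1 hz
      obtain ⟨_, a3, _, a4, _, h5, _, h7, _⟩ := mem_filter.1 hz'
      have h8 : u a3 ≤ u a2 := h7.trans h4
      have h9 := blk_mono A u b0 h8
      omega
    intro i j hij
    rcases lt_or_gt_of_ne hij with h | h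
    · exact aux i j h
    · exact (aux j i h).symm
  have hZsum : ∀ J : Finset ℕ, ∑ i ∈ J, #(Zi i) ≤ #Sec := by
    intro J
    rw [← card_biUnion (fun i _ j _ hij => hZdisj i j hij)]
    apply card_le_card
    intro z hz
    obtain ⟨i, _, hi⟩ := mem_biUnion.1 hz
    exact (mem_filter.1 hi).1
  have hstar : ∀ i : ℕ, ∑ w ∈ Wd, (#(cnt w i) : ℝ) ^ 3 ≤ S * (#(Zi i) : ℝ) ^ 2 + S0 := by
    intro i
    rcases ({a ∈ A | blk A u b0 a = i} : Finset α).eq_empty_or_nonempty with h0 | h0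
    · have : ∀ w ∈ Wd, (#(cnt w i) : ℝ) ^ 3 = 0 := by
        intro w _
        have : cnt w i = ∅ := by
          rw [hcnt]; simp only
          refine filter_eq_empty_iff.2 fun a ha hh => ?_
          have : a ∈ ({a ∈ A | blk A u b0 a = i} : Finset α) := mem_filter.2 ⟨ha, hh.2⟩
          rw [h0] at this
          exact absurd this (notMem_empty _)
        rw [this]; simp
      rw [sum_eq_zero this]; positivity
    · obtain ⟨a1, ha1, h1⟩ := exists_min_image _ u h0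
      obtain ⟨a2, ha2, h2⟩ := exists_max_image _ u h0
      obtain ⟨ha1A, ha1i⟩ := mem_filter.1 ha1
      obtain ⟨ha2A, ha2i⟩ := mem_filter.1 ha2
      refine D.star (u a1) (u a2) (fun w => cnt w i) (Zi i) ?_ ?_
      · intro w a
        simp only [hcnt, mem_filter]
        constructor
        · rintro ⟨q1, q2, q3⟩
          exact ⟨q1, q2, h1 a (mem_filter.2 ⟨q1, q3⟩), h2 a (mem_filter.2 ⟨q1, q3⟩)⟩
        · rintro ⟨q1, q2, q3, q4⟩
          refine ⟨q1, q2, ?_⟩
          have e1 := blk_mono A u b0 q3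
          have e2 := blk_mono A u b0 q4
          omega
      · intro z
        simp only [hZi, mem_filter]
        constructor
        · rintro ⟨q1, a3, q2, a4, q3, q4, q5, q6, q7⟩
          exact ⟨q1, (h1 a3 (mem_filter.2 ⟨q2, q4⟩)).trans q6,
            q7.trans (h2 a4 (mem_filter.2 ⟨q3, q5⟩))⟩
        · rintro ⟨q1, q2, q3⟩
          exact ⟨q1, a1, ha1A, a2, ha2A, ha1i, ha2i, q2, q3⟩
  -- the bad windows of a block
  set bad : ℕ → Finset ι := fun i => {w ∈ Wd | s ≤ 12 * κ * #(cnt w i)} with hbad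
  set Hv : Finset ℕ := {i ∈ A.image (blk A u b0) | κ' * b0 < #(Zi i)} with hHv
  have hbadc : ∀ i, ¬ κ' * b0 < (#(Zi i) : ℝ) →
      (#(bad i) : ℝ) ≤ 1728 * κ ^ 3 * κ' ^ 2 * (S / s + S0 / s ^ 3) := by
    intro i hi
    push Not at hi
    have h1 : (#(bad i) : ℝ) * s ^ 3 ≤ 1728 * κ ^ 3 * (S * (κ' * s) ^ 2 + S0) := by
      calc (#(bad i) : ℝ) * s ^ 3 = ∑ w ∈ bad i, s ^ 3 := by rw [sum_const, nsmul_eq_mul]
        _ ≤ ∑ w ∈ bad i, (12 * κ * #(cnt w i)) ^ 3 := by
            apply sum_le_sum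
            intro w hw
            exact pow_le_pow_left₀ hs0.le (mem_filter.1 hw).2 3
        _ ≤ ∑ w ∈ Wd, (12 * κ * #(cnt w i)) ^ 3 :=
            sum_le_sum_of_subset_of_nonneg (filter_subset _ _) (fun _ _ _ => by positivity)
        _ = 1728 * κ ^ 3 * ∑ w ∈ Wd, (#(cnt w i) : ℝ) ^ 3 := by
            rw [mul_sum]; apply sum_congr rfl; intro w _; ring
        _ ≤ 1728 * κ ^ 3 * (S * (#(Zi i) : ℝ) ^ 2 + S0) := by
            apply mul_le_mul_of_nonneg_left (hstar i) (by positivity)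
        _ ≤ 1728 * κ ^ 3 * (S * (κ' * s) ^ 2 + S0) := by
            have : (#(Zi i) : ℝ) ≤ κ' * s := hi.trans (by gcongr)
            gcongr
    have h2 : 1728 * κ ^ 3 * (S * (κ' * s) ^ 2 + S0) ≤
        (1728 * κ ^ 3 * κ' ^ 2 * (S / s + S0 / s ^ 3)) * s ^ 3 := by
      have e : (1728 * κ ^ 3 * κ' ^ 2 * (S / s + S0 / s ^ 3)) * s ^ 3 =
          1728 * κ ^ 3 * (S * (κ' * s) ^ 2 + κ' ^ 2 * S0) := by
        field_simp
      rw [e]
      have : S0 ≤ κ' ^ 2 * S0 := by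
        have : 1 ≤ κ' ^ 2 := one_le_pow₀ hκ'
        nlinarith
      gcongr
    exact le_of_mul_le_mul_right (h1.trans h2) (by positivity)
  -- step 2
  have h2 : (#P2 : ℝ) ≤ #B * #Sec / κ' +
      1728 * κ ^ 3 * κ' ^ 2 * μ * #A * (S / s + S0 / s ^ 3) := by
    set P3 : Finset (α × β) := {p ∈ P2 | blk A u b0 p.1 ∈ Hv} with hP3
    set P4 : Finset (α × β) := {p ∈ P2 | ¬ blk A u b0 p.1 ∈ Hv} with hP4
    have hsum : #P3 + #P4 = #P2 := Finset.card_filter_add_card_filter_not _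
    have hA3 : (#{a ∈ A | blk A u b0 a ∈ Hv} : ℝ) ≤ #Sec / κ' := by
      have e1 : #{a ∈ A | blk A u b0 a ∈ Hv} ≤ #Hv * b0 := by
        have e0 : #({a ∈ A | blk A u b0 a ∈ Hv} : Finset α) =
            ∑ i ∈ Hv, #{a ∈ ({a ∈ A | blk A u b0 a ∈ Hv} : Finset α) | blk A u b0 a = i} :=
          card_eq_sum_card_fiberwise (fun a ha => (mem_filter.1 ha).2)
        rw [e0]
        calc _ ≤ ∑ i ∈ Hv, b0 := by
              apply sum_le_sum
              intro i _
              refine (card_le_card ?_).trans (card_blk D.inj hb0pos i)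
              intro a ha
              obtain ⟨q1, q2⟩ := mem_filter.1 ha
              exact mem_filter.2 ⟨(mem_filter.1 q1).1, q2⟩
          _ = _ := by rw [sum_const, smul_eq_mul]
      have e2 : (#Hv : ℝ) * (κ' * b0) ≤ #Sec := by
        calc (#Hv : ℝ) * (κ' * b0) = ∑ i ∈ Hv, κ' * b0 := by rw [sum_const, nsmul_eq_mul]
          _ ≤ ∑ i ∈ Hv, (#(Zi i) : ℝ) := sum_le_sum fun i hi => (mem_filter.1 hi).2.le
          _ = ((∑ i ∈ Hv, #(Zi i) : ℕ) : ℝ) := by push_cast; rfl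
          _ ≤ #Sec := by exact_mod_cast hZsum Hv
      have e3 : (#{a ∈ A | blk A u b0 a ∈ Hv} : ℝ) ≤ #Hv * b0 := by exact_mod_cast e1
      rw [le_div_iff₀ hκ'0]
      calc _ ≤ (#Hv * b0 : ℝ) * κ' := by gcongr
        _ = (#Hv : ℝ) * (κ' * b0) := by ring
        _ ≤ _ := e2
    have h3 : (#P3 : ℝ) ≤ #B * #Sec / κ' := by
      have e1 : #P3 ≤ #({a ∈ A | blk A u b0 a ∈ Hv} ×ˢ B) := by
        apply card_le_card
        intro p hp
        obtain ⟨q1, q2⟩ := mem_filter.1 hp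
        have q3 := mem_product.1 (D.sub (mem_filter.1 q1).1)
        exact mem_product.2 ⟨mem_filter.2 ⟨q3.1, q2⟩, q3.2⟩
      rw [card_product] at e1
      have e2 : (#P3 : ℝ) ≤ #{a ∈ A | blk A u b0 a ∈ Hv} * #B := by exact_mod_cast e1
      calc (#P3 : ℝ) ≤ #{a ∈ A | blk A u b0 a ∈ Hv} * #B := e2
        _ ≤ (#Sec / κ') * #B := by gcongr
        _ = #B * #Sec / κ' := by ring
    have h4 : (#P4 : ℝ) ≤ 1728 * κ ^ 3 * κ' ^ 2 * μ * #A * (S / s + S0 / s ^ 3) := by
      have e1 : #P4 = ∑ a ∈ A, #{p ∈ P4 | p.1 = a} := card_eq_sum_card_fiberwise fun p hp =>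
        (mem_product.1 (D.sub (mem_filter.1 (mem_filter.1 hp).1).1)).1
      have e2 : ∀ a ∈ A, (#{p ∈ P4 | p.1 = a} : ℝ) ≤
          (1728 * κ ^ 3 * κ' ^ 2 * (S / s + S0 / s ^ 3)) * μ := by
        intro a ha
        by_cases hbl : blk A u b0 a ∈ Hv
        · have : ({p ∈ P4 | p.1 = a} : Finset (α × β)) = ∅ := by
            refine filter_eq_empty_iff.2 fun p hp he => ?_
            have := (mem_filter.1 hp).2
            rw [he] at this
            exact this hbl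
          rw [this]; simp only [card_empty, Nat.cast_zero]; positivity
        · have hnot : ¬ κ' * b0 < (#(Zi (blk A u b0 a)) : ℝ) := fun hc =>
            hbl (mem_filter.2 ⟨mem_image_of_mem _ ha, hc⟩)
          have f1 : ∀ p ∈ ({p ∈ P4 | p.1 = a} : Finset (α × β)),
              win p.1 p.2 ∈ bad (blk A u b0 a) := by
            intro p hp
            obtain ⟨q1, q2⟩ := mem_filter.1 hp
            obtain ⟨q3, q4⟩ := mem_filter.1 (mem_filter.1 q1).1
            rw [hbad]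
            refine mem_filter.2 ⟨D.mem p q3, ?_⟩
            refine q4.trans ?_
            have : (#{x ∈ Fb A E win p.2 (win p.1 p.2) | blk A u b0 x = blk A u b0 p.1} : ℝ) ≤
                #(cnt (win p.1 p.2) (blk A u b0 a)) := by
              rw [q2]
              have : #{x ∈ Fb A E win p.2 (win a p.2) | blk A u b0 x = blk A u b0 a} ≤
                  #(cnt (win a p.2) (blk A u b0 a)) := by
                apply card_le_card
                intro x hx
                obtain ⟨r1, r2⟩ := mem_filter.1 hx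
                obtain ⟨r3, r4, r5⟩ := mem_Fb.1 r1
                rw [hcnt]
                refine mem_filter.2 ⟨r3, ?_, r2⟩
                have := D.rich _ r4
                simp only at this
                rw [r5] at this
                exact this
              exact_mod_cast this
            gcongr
          have f2 := card_eq_sum_card_fiberwise (s := ({p ∈ P4 | p.1 = a} : Finset (α × β)))
            (f := fun p : α × β => win p.1 p.2) (t := bad (blk A u b0 a)) (fun p hp => f1 p hp)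
          have f3 : ∀ w ∈ bad (blk A u b0 a),
              (#{p ∈ ({p ∈ P4 | p.1 = a} : Finset (α × β)) | win p.1 p.2 = w} : ℝ) ≤ μ := by
            intro w hw
            have g1 := D.mult a ha w (mem_filter.1 hw).1
              (({p ∈ ({p ∈ P4 | p.1 = a} : Finset (α × β)) | win p.1 p.2 = w}).image
                fun p => p.2) (by
                intro b hb
                obtain ⟨p, hp, rfl⟩ := mem_image.1 hb
                obtain ⟨r1, r2⟩ := mem_filter.1 hp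
                obtain ⟨r3, r4⟩ := mem_filter.1 r1
                subst r4
                exact ⟨(mem_filter.1 (mem_filter.1 r3).1).1, r2⟩)
            rwa [card_image_of_injOn] at g1
            intro p hp p' hp' he
            have r1 := (mem_filter.1 (mem_filter.1 hp).1).2
            have r2 := (mem_filter.1 (mem_filter.1 hp').1).2
            exact Prod.ext (r1.trans r2.symm) he
          rw [f2]
          push_cast
          calc _ ≤ ∑ w ∈ bad (blk A u b0 a), μ := sum_le_sum f3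
            _ = #(bad (blk A u b0 a)) * μ := by rw [sum_const, nsmul_eq_mul]
            _ ≤ _ := by gcongr; exact hbadc _ hnot
      calc (#P4 : ℝ) = ∑ a ∈ A, (#{p ∈ P4 | p.1 = a} : ℝ) := by rw [e1]; push_cast; rfl
        _ ≤ ∑ a ∈ A, (1728 * κ ^ 3 * κ' ^ 2 * (S / s + S0 / s ^ 3)) * μ := sum_le_sum e2
        _ = _ := by rw [sum_const, nsmul_eq_mul]; ring
    have hsum' : (#P3 : ℝ) + #P4 = #P2 := by exact_mod_cast hsum
    linarith
  have h12' : (#P1 : ℝ) ≤ 2 * #P2 := by exact_mod_cast h12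
  linarith

open Classical in
/-- pairs whose window has a large hull -/
lemma big_hull (D : BlockData A u B E win Wd Rr Sec v μ h S S0) {κ : ℝ} (hκ : 1 ≤ κ) :
    (#{p ∈ E | κ * #(Fb A E win p.2 (win p.1 p.2)) < (#(Hb A u E win p.2 (win p.1 p.2)) : ℝ)} : ℝ) ≤
      h * #A * #B / κ := by
  have hκ0 : 0 < κ := by linarith
  set P : Finset (α × β) := {p ∈ E | κ * #(Fb A E win p.2 (win p.1 p.2)) <
    (#(Hb A u E win p.2 (win p.1 p.2)) : ℝ)} with hP
  have m1 : ∀ p ∈ P, (p.2, win p.1 p.2) ∈ B ×ˢ Wd := fun p hp =>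
      mem_product.2 ⟨(mem_product.1 (D.sub (mem_filter.1 hp).1)).2, D.mem p (mem_filter.1 hp).1⟩
  have hc := card_eq_sum_card_fiberwise m1
  have hf : ∀ bw ∈ B ×ˢ Wd, (#{p ∈ P | (p.2, win p.1 p.2) = bw} : ℝ) * κ ≤
      #(Hb A u E win bw.1 bw.2) := by
    rintro ⟨b, w⟩ _
    rcases ({p ∈ P | (p.2, win p.1 p.2) = (b, w)} : Finset (α × β)).eq_empty_or_nonempty with
      h0 | ⟨p, hp⟩
    · rw [h0]; simp
    obtain ⟨hp1, hp2⟩ := mem_filter.1 hp
    obtain ⟨hpE, q1⟩ := mem_filter.1 hp1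
    rw [Prod.mk.injEq] at hp2
    rw [hp2.2, hp2.1] at q1
    have c1 : #{p ∈ P | (p.2, win p.1 p.2) = (b, w)} ≤ #(Fb A E win b w) := by
      refine card_le_card_of_injOn (fun p => p.1) ?_ ?_
      · intro r hr
        obtain ⟨hr1, hr2⟩ := mem_filter.1 hr
        rw [Prod.mk.injEq] at hr2
        rw [mem_coe, mem_Fb]
        have hrE := (mem_filter.1 hr1).1
        refine ⟨(mem_product.1 (D.sub hrE)).1, ?_, ?_⟩
        · rw [← hr2.1]; exact hrE
        · have := hr2.2; rw [hr2.1] at this; exact this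
      · intro r hr r' hr' he
        have e1 := (Prod.mk.injEq _ _ _ _ ▸ (mem_filter.1 hr).2 : r.2 = b ∧ win r.1 r.2 = w).1
        have e2 := (Prod.mk.injEq _ _ _ _ ▸ (mem_filter.1 hr').2 : r'.2 = b ∧ win r'.1 r'.2 = w).1
        exact Prod.ext he (e1.trans e2.symm)
    have c2 : (#{p ∈ P | (p.2, win p.1 p.2) = (b, w)} : ℝ) ≤ #(Fb A E win b w) := by
      exact_mod_cast c1
    calc _ ≤ (#(Fb A E win b w) : ℝ) * κ := by gcongr
      _ = κ * #(Fb A E win b w) := by ring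
      _ ≤ _ := q1.le
  have hdc : ∀ b ∈ B, ∑ w ∈ Wd, (#(Hb A u E win b w) : ℝ) ≤ h * #A := by
    intro b hb
    have e1 : ∑ w ∈ Wd, #(Hb A u E win b w) = ∑ a ∈ A, #{w ∈ Wd | a ∈ Hb A u E win b w} := by
      have := sum_card_bipartiteAbove_eq_sum_card_bipartiteBelow (s := Wd) (t := A)
        (fun w a => a ∈ Hb A u E win b w)
      unfold bipartiteAbove bipartiteBelow at this
      rw [← this]
      apply sum_congr rfl
      intro w _
      congr 1
      ext a
      rw [mem_filter]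
      constructor
      · intro ha; exact ⟨(mem_filter.1 ha).1, ha⟩
      · intro ha; exact ha.2
    have e2 : ∑ w ∈ Wd, (#(Hb A u E win b w) : ℝ) =
        ∑ a ∈ A, (#{w ∈ Wd | a ∈ Hb A u E win b w} : ℝ) := by exact_mod_cast e1
    rw [e2]
    calc _ ≤ ∑ a ∈ A, h := sum_le_sum fun a ha => D.hull b hb a ha _ fun w hw => mem_filter.1 hw
      _ = _ := by rw [sum_const, nsmul_eq_mul]; ring
  rw [le_div_iff₀ hκ0]
  calc (#P : ℝ) * κ = ∑ bw ∈ B ×ˢ Wd, (#{p ∈ P | (p.2, win p.1 p.2) = bw} : ℝ) * κ := by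
        rw [hc]; push_cast; rw [sum_mul]
    _ ≤ ∑ bw ∈ B ×ˢ Wd, (#(Hb A u E win bw.1 bw.2) : ℝ) := sum_le_sum hf
    _ = ∑ b ∈ B, ∑ w ∈ Wd, (#(Hb A u E win b w) : ℝ) := by rw [sum_product]
    _ ≤ ∑ b ∈ B, h * #A := sum_le_sum hdc
    _ = _ := by rw [sum_const, nsmul_eq_mul]; ring

open Classical in
/-- **BLOCK LEMMA** -/
theorem block (D : BlockData A u B E win Wd Rr Sec v μ h S S0) {s κ κ' : ℝ} (hs : 1 ≤ s)
    (hκ : 1 ≤ κ) (hκ' : 1 ≤ κ') :
    (#{p ∈ E | s ≤ #(Fb A E win p.2 (win p.1 p.2))} : ℝ) ≤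
      h * #A * #B / κ + 2 * (Nat.log 2 #A + 1) * #B * #Sec / κ' +
        6912 * κ ^ 3 * κ' ^ 2 * μ * #A * (S / s + S0 / s ^ 3) := by
  have hs0 : 0 < s := by linarith
  have hκ0 : 0 < κ := by linarith
  have hκ'0 : 0 < κ' := by linarith
  have hμ0 := D.μ0
  have hS1 := D.S1
  have hS2 := D.S2
  set J : ℕ := Nat.log 2 #A + 1 with hJ
  set PB : Finset (α × β) := {p ∈ E | κ * #(Fb A E win p.2 (win p.1 p.2)) <
    (#(Hb A u E win p.2 (win p.1 p.2)) : ℝ)} with hPB
  set PJ : ℕ → Finset (α × β) := fun j => {p ∈ E | 2 ^ j * s ≤ #(Fb A E win p.2 (win p.1 p.2)) ∧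
    (#(Fb A E win p.2 (win p.1 p.2)) : ℝ) ≤ 2 * (2 ^ j * s) ∧
        (#(Hb A u E win p.2 (win p.1 p.2)) : ℝ) ≤ κ * #(Fb A E win p.2 (win p.1 p.2))} with hPJ
  have hsub : {p ∈ E | s ≤ (#(Fb A E win p.2 (win p.1 p.2)) : ℝ)} ⊆
      PB ∪ (Finset.range J).biUnion PJ := by
    intro p hp
    obtain ⟨hpE, hps⟩ := mem_filter.1 hp
    rw [mem_union]
    by_cases hb : κ * #(Fb A E win p.2 (win p.1 p.2)) <
        (#(Hb A u E win p.2 (win p.1 p.2)) : ℝ)
    · exact Or.inl (mem_filter.2 ⟨hpE, hb⟩)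
    · right
      push Not at hb
      obtain ⟨j, hj1, hj2⟩ := exists_nat_pow_near
        (show (1 : ℝ) ≤ #(Fb A E win p.2 (win p.1 p.2)) / s by rw [le_div_iff₀ hs0]; linarith)
        (show (1 : ℝ) < 2 by norm_num)
      rw [le_div_iff₀ hs0] at hj1
      rw [div_lt_iff₀ hs0] at hj2
      rw [mem_biUnion]
      refine ⟨j, ?_, mem_filter.2 ⟨hpE, hj1, ?_, hb⟩⟩
      · rw [mem_range, hJ, Nat.lt_succ_iff]
        have hF : #(Fb A E win p.2 (win p.1 p.2)) ≤ #A := by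
          apply card_le_card; intro a ha; exact (mem_Fb.1 ha).1
        have h1 : (2 : ℝ) ^ j ≤ #A := by
          calc (2 : ℝ) ^ j = 2 ^ j * 1 := by ring
            _ ≤ 2 ^ j * s := by gcongr
            _ ≤ _ := hj1
            _ ≤ #A := by exact_mod_cast hF
        have h2 : 2 ^ j ≤ #A := by exact_mod_cast h1
        exact Nat.le_log_of_pow_le (by norm_num) h2
      · rw [pow_succ] at hj2; linarith
  have hcard : (#{p ∈ E | s ≤ (#(Fb A E win p.2 (win p.1 p.2)) : ℝ)} : ℝ) ≤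
      #PB + ∑ j ∈ Finset.range J, (#(PJ j) : ℝ) := by
    have h1 : #{p ∈ E | s ≤ (#(Fb A E win p.2 (win p.1 p.2)) : ℝ)} ≤
        #PB + ∑ j ∈ Finset.range J, #(PJ j) :=
      (card_le_card hsub).trans ((card_union_le _ _).trans (Nat.add_le_add_left card_biUnion_le _))
    exact_mod_cast h1
  have hB := big_hull D hκ
  have hj : ∀ j ∈ Finset.range J, (#(PJ j) : ℝ) ≤ 2 * (#B * #Sec / κ') +
      (3456 * κ ^ 3 * κ' ^ 2 * μ * #A * (S / s + S0 / s ^ 3)) * (1 / 2) ^ j := by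
    intro j _
    have h2j : (1 : ℝ) ≤ 2 ^ j := one_le_pow₀ (by norm_num)
    have h1 := one_class D (s := 2 ^ j * s) (by nlinarith) hκ hκ'
    refine h1.trans ?_
    have h3 : S / (2 ^ j * s) + S0 / (2 ^ j * s) ^ 3 ≤ (S / s + S0 / s ^ 3) * (1 / 2) ^ j := by
      have e1 : S / (2 ^ j * s) = (S / s) * (1 / 2) ^ j := by
        rw [one_div, inv_pow]; field_simp
      have e2 : S0 / (2 ^ j * s) ^ 3 ≤ (S0 / s ^ 3) * (1 / 2) ^ j := by
        rw [one_div, inv_pow, mul_pow]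
        have : S0 / ((2 ^ j) ^ 3 * s ^ 3) ≤ S0 / (2 ^ j * s ^ 3) := by
          apply div_le_div_of_nonneg_left hS2 (by positivity)
          have : (2 : ℝ) ^ j ≤ (2 ^ j) ^ 3 := by
            calc (2 : ℝ) ^ j = (2 ^ j) ^ 1 := by ring
              _ ≤ (2 ^ j) ^ 3 := pow_le_pow_right₀ h2j (by norm_num)
          gcongr
        refine this.trans (le_of_eq ?_)
        field_simp
      rw [e1, add_mul]
      linarith
    have h4 : 1728 * κ ^ 3 * κ' ^ 2 * μ * #A * (S / (2 ^ j * s) + S0 / (2 ^ j * s) ^ 3) ≤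
        1728 * κ ^ 3 * κ' ^ 2 * μ * #A * ((S / s + S0 / s ^ 3) * (1 / 2) ^ j) :=
      mul_le_mul_of_nonneg_left h3 (by positivity)
    linarith
  have hgeom : ∑ j ∈ Finset.range J, ((1 : ℝ) / 2) ^ j ≤ 2 := sum_geometric_two_le J
  have hsumj : ∑ j ∈ Finset.range J, (#(PJ j) : ℝ) ≤ J * (2 * (#B * #Sec / κ')) +
      (3456 * κ ^ 3 * κ' ^ 2 * μ * #A * (S / s + S0 / s ^ 3)) * 2 := by
    calc _ ≤ ∑ j ∈ Finset.range J, (2 * (#B * #Sec / κ') +
        (3456 * κ ^ 3 * κ' ^ 2 * μ * #A * (S / s + S0 / s ^ 3)) * (1 / 2) ^ j) := sum_le_sum hj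
      _ = J * (2 * (#B * #Sec / κ')) + (3456 * κ ^ 3 * κ' ^ 2 * μ * #A * (S / s + S0 / s ^ 3)) *
          ∑ j ∈ Finset.range J, ((1 : ℝ) / 2) ^ j := by
          rw [sum_add_distrib, sum_const, card_range, nsmul_eq_mul, ← mul_sum]
      _ ≤ _ := by
          have : 0 ≤ 3456 * κ ^ 3 * κ' ^ 2 * μ * #A * (S / s + S0 / s ^ 3) := by positivity
          gcongr
  have hJR : (J : ℝ) = Nat.log 2 #A + 1 := by rw [hJ]; push_cast; ring
  rw [hJR] at hsumj
  have e : 2 * ((Nat.log 2 #A : ℝ) + 1) * #B * #Sec / κ' =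
      ((Nat.log 2 #A : ℝ) + 1) * (2 * (#B * #Sec / κ')) := by ring
  rw [e]
  linarith

end one

end Vale.Agent.P065.H930
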