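import Vale.Agent.P065.H930.Block

/-!
# P065, upper bound: the block lemma without a logarithm (helper930)
-/

set_option autoImplicit false

namespace Vale.Agent.P065.H930

open Finset

variable {α β γ ι : Type*} {A : Finset α} {u : α → ℝ} {B : Finset β} {E : Finset (α × β)}
  {win : α → β → ι} {Wd : Finset ι} {Rr : ι → Finset α} {Sec : Finset γ} {v : γ → ℝ}
  {μ h S S0 : ℝ}

lemma sum_geo_le {r : ℝ} (h0 : 0 ≤ r) (h1 : r < 1) (n : ℕ) :
    ∑ j ∈ Finset.range n, r ^ j ≤ 1 / (1 - r) := by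
  have h2 : 0 < 1 - r := by linarith
  rw [geom_sum_eq h1.ne, ← neg_div_neg_eq, neg_sub, neg_sub]
  gcongr
  have : 0 ≤ r ^ n := pow_nonneg h0 n
  linarith

open Classical in
/-- **the block lemma**, no logarithm -/
theorem block' (D : BlockData A u B E win Wd Rr Sec v μ h S S0) {s κ κ' : ℝ} (hs : 1 ≤ s)
    (hκ : 1 ≤ κ) (hκ' : 1 ≤ κ') :
    (#{p ∈ E | s ≤ #(Fb A E win p.2 (win p.1 p.2))} : ℝ) ≤
      h * #A * #B / κ + 10 * (#B * #Sec / κ') +
        17280 * κ ^ 3 * κ' ^ 2 * μ * #A * (S / s + S0 / s ^ 3) := by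
  have hs0 : 0 < s := by linarith
  have hκ0 : 0 < κ := by linarith
  have hκ'0 : 0 < κ' := by linarith
  have hμ0 := D.μ0
  have hS1 := D.S1
  have hS2 := D.S2
  set J : ℕ := Nat.log 2 #A + 1 with hJ
  set PB : Finset (α × β) := {p ∈ E | κ * #(Fb A E win p.2 (win p.1 p.2)) <
    (#(Hb A u E win p.2 (win p.1 p.2)) : ℝ)} with hPB
  set PJ : ℕ → Finset (α × β) := fun j => {p ∈ E | 2 ^ j * s ≤ #(Fb A E win p.2 (win p.1 p.2)) ∧
    (#(Fb A E win p.2 (win p.1 p.2)) : ℝ) ≤ 2 * (2 ^ j * s) ∧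
        (#(Hb A u E win p.2 (win p.1 p.2)) : ℝ) ≤ κ * #(Fb A E win p.2 (win p.1 p.2))} with hPJ
  have hsub : {p ∈ E | s ≤ (#(Fb A E win p.2 (win p.1 p.2)) : ℝ)} ⊆
      PB ∪ (Finset.range J).biUnion PJ := by
    intro p hp
    obtain ⟨hpE, hps⟩ := mem_filter.1 hp
    rw [mem_union]
    by_cases hb : κ * #(Fb A E win p.2 (win p.1 p.2)) <
        (#(Hb A u E win p.2 (win p.1 p.2)) : ℝ)
    · exact Or.inl (mem_filter.2 ⟨hpE, hb⟩)
    · right
      push Not at hb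
      obtain ⟨j, hj1, hj2⟩ := exists_nat_pow_near
        (show (1 : ℝ) ≤ #(Fb A E win p.2 (win p.1 p.2)) / s by rw [le_div_iff₀ hs0]; linarith)
        (show (1 : ℝ) < 2 by norm_num)
      rw [le_div_iff₀ hs0] at hj1
      rw [div_lt_iff₀ hs0] at hj2
      rw [mem_biUnion]
      refine ⟨j, ?_, mem_filter.2 ⟨hpE, hj1, ?_, hb⟩⟩
      · rw [mem_range, hJ, Nat.lt_succ_iff]
        have hF : #(Fb A E win p.2 (win p.1 p.2)) ≤ #A := by
          apply card_le_card; intro a ha; exact (mem_Fb.1 ha).1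
        have h1 : (2 : ℝ) ^ j ≤ #A := by
          calc (2 : ℝ) ^ j = 2 ^ j * 1 := by ring
            _ ≤ 2 ^ j * s := by gcongr
            _ ≤ _ := hj1
            _ ≤ #A := by exact_mod_cast hF
        have h2 : 2 ^ j ≤ #A := by exact_mod_cast h1
        exact Nat.le_log_of_pow_le (by norm_num) h2
      · rw [pow_succ] at hj2; linarith
  have hcard : (#{p ∈ E | s ≤ (#(Fb A E win p.2 (win p.1 p.2)) : ℝ)} : ℝ) ≤
      #PB + ∑ j ∈ Finset.range J, (#(PJ j) : ℝ) := by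
    have h1 : #{p ∈ E | s ≤ (#(Fb A E win p.2 (win p.1 p.2)) : ℝ)} ≤
        #PB + ∑ j ∈ Finset.range J, #(PJ j) :=
      (card_le_card hsub).trans ((card_union_le _ _).trans (Nat.add_le_add_left card_biUnion_le _))
    exact_mod_cast h1
  have hB := big_hull D hκ
  have hj : ∀ j ∈ Finset.range J, (#(PJ j) : ℝ) ≤ 2 * (#B * #Sec / κ') * (4 / 5) ^ j +
      (3456 * κ ^ 3 * κ' ^ 2 * μ * #A * (S / s + S0 / s ^ 3)) * (25 / 32) ^ j := by
    intro j _
    have h2j : (1 : ℝ) ≤ 2 ^ j := one_le_pow₀ (by norm_num)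
    have h5j : (1 : ℝ) ≤ (5 / 4) ^ j := one_le_pow₀ (by norm_num)
    have h1 := one_class D (s := 2 ^ j * s) (κ' := κ' * (5 / 4) ^ j) (by nlinarith) hκ
      (one_le_mul_of_one_le_of_one_le hκ' h5j)
    refine h1.trans ?_
    have h3 : S / (2 ^ j * s) + S0 / (2 ^ j * s) ^ 3 ≤ (S / s + S0 / s ^ 3) * (1 / 2) ^ j := by
      have e1 : S / (2 ^ j * s) = (S / s) * (1 / 2) ^ j := by
        rw [one_div, inv_pow]; field_simp
      have e2 : S0 / (2 ^ j * s) ^ 3 ≤ (S0 / s ^ 3) * (1 / 2) ^ j := by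
        rw [one_div, inv_pow, mul_pow]
        have : S0 / ((2 ^ j) ^ 3 * s ^ 3) ≤ S0 / (2 ^ j * s ^ 3) := by
          apply div_le_div_of_nonneg_left hS2 (by positivity)
          have : (2 : ℝ) ^ j ≤ (2 ^ j) ^ 3 := by
            calc (2 : ℝ) ^ j = (2 ^ j) ^ 1 := by ring
              _ ≤ (2 ^ j) ^ 3 := pow_le_pow_right₀ h2j (by norm_num)
          gcongr
        refine this.trans (le_of_eq ?_)
        field_simp
      rw [e1, add_mul]
      linarith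
    have h4 : 1728 * κ ^ 3 * (κ' * (5 / 4) ^ j) ^ 2 * μ * #A *
          (S / (2 ^ j * s) + S0 / (2 ^ j * s) ^ 3) ≤
        1728 * κ ^ 3 * (κ' * (5 / 4) ^ j) ^ 2 * μ * #A * ((S / s + S0 / s ^ 3) * (1 / 2) ^ j) :=
      mul_le_mul_of_nonneg_left h3 (by positivity)
    have e5 : (((5 : ℝ) / 4) ^ j) ^ 2 * (1 / 2) ^ j = (25 / 32) ^ j := by
      rw [← pow_mul, mul_comm j 2, pow_mul, ← mul_pow]; norm_num
    have h5 : 1728 * κ ^ 3 * (κ' * (5 / 4) ^ j) ^ 2 * μ * #A *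
        ((S / s + S0 / s ^ 3) * (1 / 2) ^ j) =
        1728 * κ ^ 3 * κ' ^ 2 * μ * #A * (S / s + S0 / s ^ 3) * (25 / 32) ^ j := by
      rw [← e5]; ring
    have h6 : #B * #Sec / (κ' * (5 / 4) ^ j) = (#B * #Sec / κ') * (4 / 5) ^ j := by
      have : ((4 : ℝ) / 5) ^ j = ((5 / 4) ^ j)⁻¹ := by rw [← inv_pow]; norm_num
      rw [this]
      field_simp
    rw [h6]
    linarith
  have hg1 : ∑ j ∈ Finset.range J, ((4 : ℝ) / 5) ^ j ≤ 5 := by
    refine (sum_geo_le (by norm_num) (by norm_num) J).trans (by norm_num)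
  have hg2 : ∑ j ∈ Finset.range J, ((25 : ℝ) / 32) ^ j ≤ 5 := by
    refine (sum_geo_le (by norm_num) (by norm_num) J).trans (by norm_num)
  have hsumj : ∑ j ∈ Finset.range J, (#(PJ j) : ℝ) ≤ 2 * (#B * #Sec / κ') * 5 +
      (3456 * κ ^ 3 * κ' ^ 2 * μ * #A * (S / s + S0 / s ^ 3)) * 5 := by
    calc _ ≤ ∑ j ∈ Finset.range J, (2 * (#B * #Sec / κ') * (4 / 5) ^ j +
        (3456 * κ ^ 3 * κ' ^ 2 * μ * #A * (S / s + S0 / s ^ 3)) * (25 / 32) ^ j) := sum_le_sum hj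
      _ = 2 * (#B * #Sec / κ') * ∑ j ∈ Finset.range J, ((4 : ℝ) / 5) ^ j +
          (3456 * κ ^ 3 * κ' ^ 2 * μ * #A * (S / s + S0 / s ^ 3)) *
          ∑ j ∈ Finset.range J, ((25 : ℝ) / 32) ^ j := by
          rw [sum_add_distrib, ← mul_sum, ← mul_sum]
      _ ≤ _ := by
          have : 0 ≤ 3456 * κ ^ 3 * κ' ^ 2 * μ * #A * (S / s + S0 / s ^ 3) := by positivity
          gcongr
  linarith

end Vale.Agent.P065.H930
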