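import Vale.Agent.P065.H930.Group
import Vale.Agent.P065.H930.BlockX

/-!
# P065, upper bound: the multiplicity of one group of collinear centres (helper930)

The literal Prop `StGroup` of helper410, with other absolute constants (no logarithm).
-/

set_option autoImplicit false

namespace Vale.Agent.P065.H930

open Finset Vale.Agent.P065.UB Vale.Agent.P065.UB.RankAux Vale.Agent.P065.H183
open Vale.Agent.P065.UB.H415 (prj)

lemma num4 {K lam L D M N G a : ℝ} (hK0 : 0 < K) (hl : 1 ≤ lam) (hL : 1 ≤ L) (hD : 1 ≤ D)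
    (hM0 : 1 ≤ M) (hK : 2 ≤ K) (hQ : lam ^ 5 ≤ N) (hG0 : 0 ≤ G) (ha0 : 0 ≤ a)
    (hM2 : 7500000 * K * L * D ^ 6 * N ≤ lam ^ 2 * M) :
    17280 * D ^ 3 * D ^ 2 * (L * a / lam) * G *
      (216 * K * N / lam / M + 216 * K * N ^ 2 / M ^ 3) ≤ G * a / D := by
  have hl0 : 0 < lam := by linarith
  have hL0 : 0 < L := by linarith
  have hD0 : 0 < D := by linarith
  have hM00 : 0 < M := by linarith
  have hN1 : 1 ≤ N := le_trans (one_le_pow₀ hl) hQ
  have hN0 : 0 < N := by linarith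
  have e1 : N ≤ lam ^ 2 * M := by
    have p1 : 1 ≤ 7500000 * K * L * D ^ 6 := by
      have q2 : 1 ≤ D ^ 6 := one_le_pow₀ hD
      have q4 : 1 ≤ 7500000 * K := by linarith
      have q5 : 1 ≤ 7500000 * K * L := one_le_mul_of_one_le_of_one_le q4 hL
      exact one_le_mul_of_one_le_of_one_le q5 q2
    calc N = 1 * N := by ring
      _ ≤ (7500000 * K * L * D ^ 6) * N := by gcongr
      _ ≤ _ := hM2
  have e2 : lam * N ≤ M ^ 2 := by
    have q1 : N ^ 2 ≤ (lam ^ 2 * M) ^ 2 := by gcongr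
    have q2 : lam ^ 5 * N ≤ N ^ 2 := by rw [pow_two]; gcongr
    have q3 : lam ^ 4 * (lam * N) ≤ lam ^ 4 * M ^ 2 := by
      calc lam ^ 4 * (lam * N) = lam ^ 5 * N := by ring
        _ ≤ N ^ 2 := q2
        _ ≤ (lam ^ 2 * M) ^ 2 := q1
        _ = _ := by ring
    exact le_of_mul_le_mul_left q3 (by positivity)
  have e3 : N ^ 2 / M ^ 3 ≤ N / (lam * M) := by
    rw [div_le_div_iff₀ (by positivity) (by positivity)]
    calc N ^ 2 * (lam * M) = N * M * (lam * N) := by ring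
      _ ≤ N * M * M ^ 2 := by gcongr
      _ = N * M ^ 3 := by ring
  have e4 : 216 * K * N / lam / M + 216 * K * N ^ 2 / M ^ 3 ≤ 432 * K * (N / (lam * M)) := by
    have h1 : 216 * K * N / lam / M = 216 * K * (N / (lam * M)) := by
      rw [div_div, mul_div_assoc]
    have h2 : 216 * K * N ^ 2 / M ^ 3 = 216 * K * (N ^ 2 / M ^ 3) := by
      rw [mul_div_assoc]
    rw [h1, h2]
    have h3 : 216 * K * (N ^ 2 / M ^ 3) ≤ 216 * K * (N / (lam * M)) := by gcongr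
    linarith
  calc 17280 * D ^ 3 * D ^ 2 * (L * a / lam) * G *
        (216 * K * N / lam / M + 216 * K * N ^ 2 / M ^ 3)
      ≤ 17280 * D ^ 3 * D ^ 2 * (L * a / lam) * G * (432 * K * (N / (lam * M))) := by
        gcongr
    _ = (7464960 * K * L * D ^ 6 * N) * (G * a) / (lam ^ 2 * M) / D := by
        field_simp; ring
    _ ≤ (lam ^ 2 * M) * (G * a) / (lam ^ 2 * M) / D := by
        have : 7464960 * K * L * D ^ 6 * N ≤ lam ^ 2 * M := by
          refine le_trans ?_ hM2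
          have : 0 ≤ K * L * D ^ 6 * N := by positivity
          nlinarith
        gcongr
    _ = G * a / D := by
        rw [mul_div_cancel_left₀]
        positivity

open Classical in
/-- **one group**: a fixed point `c` and window `w0`, `g` = centres on one side of `c` in the
sector `I w0`; `Pr` = pairs (centre `z`, leaf `b`) such that the projection of `z` to the line of
slope `m0 ∈ I w0` through `c` is seen from `b` in the window `Wd (z, b) ≠ w0`. -/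
theorem stGroupN (K lam : ℝ) (Q : Finset Pt) (W : Finset ℕ) (I : ℕ → Set ℝ) (R : ℕ → Finset Pt)
    (hV : JView K lam Q W I R) (hQ : lam ^ 5 ≤ #Q) (c : Pt) (w0 : ℕ) (m0 : ℝ) (hw0 : w0 ∈ W)
    (hm0 : m0 ∈ I w0) (g A : Finset Pt) (hg : ∀ z ∈ g, z ∈ Q ∧ sl c z ∈ I w0)
    (hside : (∀ z ∈ g, c.1 < z.1) ∨ ∀ z ∈ g, z.1 < c.1)
    (Pr : Finset (Pt × Pt)) (Wd : Pt × Pt → ℕ)
    (hPr : ∀ e ∈ Pr, e.1 ∈ g ∧ e.2 ∈ A ∧ Wd e ∈ W ∧ Wd e ≠ w0 ∧ e.1 ∈ R (Wd e) ∧ e.1.1 ≠ e.2.1 ∧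
      sl (prj m0 c e.1) e.2 ∈ I (Wd e))
    (L : ℝ) (hL : 1 ≤ L)
    (hmul : ∀ z ∈ g, ∀ w ∈ W, lam * #{b ∈ A | (z, b) ∈ Pr ∧ Wd (z, b) = w} ≤ L * #A)
    (M : ℕ) (D : ℝ) (hM : 1 ≤ M) (hD : 1 ≤ D)
    (hM2 : 7500000 * K * L * D ^ 6 * #Q ≤ lam ^ 2 * M) :
    D * #{e ∈ Pr | M ≤ #{z ∈ g | (z, e.2) ∈ Pr ∧ Wd (z, e.2) = Wd e}} ≤
      (2 * #g + 10 * #{p ∈ Q | sl c p ∈ I w0}) * #A := by
  have hK := hV.two
  have hK0 : 0 < K := by linarith
  have hl := hV.one
  have hl0 : 0 < lam := by linarith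
  have hL0 : 0 < L := by linarith
  have hD0 : 0 < D := by linarith
  have hM0 : (1 : ℝ) ≤ M := by exact_mod_cast hM
  have hM00 : (0 : ℝ) < M := by linarith
  have hQ0 : (1 : ℝ) ≤ #Q := le_trans (one_le_pow₀ hl) hQ
  have hQ00 : (0 : ℝ) < #Q := by linarith
  rcases g.eq_empty_or_nonempty with h0 | h0
  · have : Pr = ∅ := by
      rw [Finset.eq_empty_iff_forall_notMem]
      intro e he
      have := (hPr e he).1
      rw [h0] at this
      exact absurd this (Finset.notMem_empty _)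
    rw [this]
    simp only [filter_empty, card_empty, Nat.cast_zero, mul_zero]
    positivity
  obtain ⟨σ, hσ⟩ : ∃ σ : ℝ, ∀ z ∈ g, 0 < σ * (z.1 - c.1) := by
    rcases hside with h | h
    · exact ⟨1, fun z hz => by have := h z hz; linarith⟩
    · exact ⟨-1, fun z hz => by have := h z hz; linarith⟩
  obtain ⟨z1, hz1, hα⟩ := exists_min_image g (fun z => sl c z) h0
  obtain ⟨z2, hz2, hβ⟩ := exists_max_image g (fun z => sl c z) h0
  have hD' := group hV c m0 (sl c z1) (sl c z2) σ g A Pr (fun z b => Wd (z, b)) (W.erase w0) I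
    (L * #A / lam) (fun z hz => (hg z hz).1) (fun z hz => ⟨hσ z hz, hα z hz, hβ z hz⟩)
    (erase_subset _ _) (fun w hw => hV.conn w (mem_of_mem_erase hw))
    (fun w hw w' hw' hne => hV.disj w (mem_of_mem_erase hw) w' (mem_of_mem_erase hw') hne)
    (fun w hw hm => Set.disjoint_left.1 (hV.disj w (mem_of_mem_erase hw) w0 hw0
      (ne_of_mem_erase hw)) hm hm0)
    (fun e he => mem_product.2 ⟨(hPr e he).1, (hPr e he).2.1⟩)
    (fun e he => ⟨mem_erase.2 ⟨(hPr e he).2.2.2.1, (hPr e he).2.2.1⟩, (hPr e he).2.2.2.2.1,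
      (hPr e he).2.2.2.2.2.1, (hPr e he).2.2.2.2.2.2⟩)
    (by positivity)
    (by
      intro z hz w hw T hT
      rw [le_div_iff₀ hl0, mul_comm]
      refine le_trans ?_ (hmul z hz w (mem_of_mem_erase hw))
      have : #T ≤ #{b ∈ A | (z, b) ∈ Pr ∧ Wd (z, b) = w} := by
        apply card_le_card
        intro b hb
        exact mem_filter.2 ⟨(hPr _ (hT b hb).1).2.1, (hT b hb).1, (hT b hb).2⟩
      have h2 : (#T : ℝ) ≤ #{b ∈ A | (z, b) ∈ Pr ∧ Wd (z, b) = w} := by exact_mod_cast this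
      gcongr)
  have hB := block' hD' (s := (M : ℝ)) (κ := D) (κ' := D) hM0 hD hD
  set Sc : ℝ := (#{p ∈ Q | sl c p ∈ I w0} : ℝ) with hSc
  have hsec : (#(Sect Q c (sl c z1) (sl c z2) σ) : ℝ) ≤ Sc := by
    have : #(Sect Q c (sl c z1) (sl c z2) σ) ≤ #{p ∈ Q | sl c p ∈ I w0} := by
      apply card_le_card
      intro p hp
      unfold Sect at hp
      obtain ⟨q1, _, q3, q4⟩ := mem_filter.1 hp
      exact mem_filter.2 ⟨q1, (hV.conn w0 hw0).out (hg z1 hz1).2 (hg z2 hz2).2 ⟨q3, q4⟩⟩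
    rw [hSc]
    exact_mod_cast this
  have hSc0 : 0 ≤ Sc := le_trans (Nat.cast_nonneg _) hsec
  -- the set of the statement
  have hset : ({e ∈ Pr | M ≤ #{z ∈ g | (z, e.2) ∈ Pr ∧ Wd (z, e.2) = Wd e}} : Finset (Pt × Pt)) =
      {p ∈ Pr | (M : ℝ) ≤ #(Fb g Pr (fun z b => Wd (z, b)) p.2 (Wd (p.1, p.2)))} := by
    apply filter_congr
    intro e _
    unfold Fb
    rw [Nat.cast_le]
    convert Iff.rfl
  rw [hset]
  -- numbers
  set G : ℝ := (#g : ℝ) with hG
  set a : ℝ := (#A : ℝ) with ha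
  have hG0 : 0 ≤ G := Nat.cast_nonneg _
  have ha0 : 0 ≤ a := Nat.cast_nonneg _
  set N : ℝ := (#Q : ℝ) with hN
  have h3 := num4 hK0 hl hL hD hM0 hK hQ hG0 ha0 hM2
  have h2 : 10 * (a * #(Sect Q c (sl c z1) (sl c z2) σ) / D) ≤ 10 * (a * Sc / D) := by gcongr
  calc D * (#{p ∈ Pr | (M : ℝ) ≤ #(Fb g Pr (fun z b => Wd (z, b)) p.2 (Wd (p.1, p.2)))} : ℝ)
      ≤ D * (1 * G * a / D + 10 * (a * Sc / D) + G * a / D) := by
        refine mul_le_mul_of_nonneg_left (hB.trans ?_) hD0.le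
        gcongr
    _ = (2 * G + 10 * Sc) * a := by field_simp; ring

end Vale.Agent.P065.H930
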