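import Vale.Agent.P065.UB.H410.Group
import Vale.Agent.P065.UB.H415.CherDefs

/-!
# P065, upper bound: FLAG for a `Cher` (helper930)
-/

set_option autoImplicit false

namespace Vale.Agent.P065.H930

open Finset Vale.Agent.P065.UB Vale.Agent.P065.UB.RankAux Vale.Agent.P065.H183
open Vale.Agent.P065.UB.H415 Vale.Agent.P065.UB.H410

variable {K K1 lam : ℝ} {Q : Finset Pt} {W : Finset ℕ} {I : ℕ → Set ℝ} {R : ℕ → Finset Pt}
  {c : Pt} {w0 : ℕ} {m0 : ℝ} {Pr : Finset (Pt × Pt)} {Wd : Pt × Pt → ℕ}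

/-- a dense subset of the pairs -/
theorem cher_sub (h : Cher K1 lam Q W I R c w0 m0 Pr Wd) {L : ℝ} (hL : K1 ≤ L)
    {Pr1 : Finset (Pt × Pt)} (hs : Pr1 ⊆ Pr) (hc : (#Q : ℝ) ^ 2 ≤ L * lam * #Pr1) :
    Cher L lam Q W I R c w0 m0 Pr1 Wd := by
  have hq : (0 : ℝ) ≤ #Q := Nat.cast_nonneg _
  have hm : K1 * #Q ≤ L * #Q := mul_le_mul_of_nonneg_right hL hq
  exact
    { w0W := h.w0W
      cQ := h.cQ
      m0I := h.m0I
      card := hc
      mem1 := fun e he => h.mem1 e (hs he)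
      mem2 := fun e he => h.mem2 e (hs he)
      jc := fun e he => h.jc e (hs he)
      wdW := fun e he => h.wdW e (hs he)
      wd0 := fun e he => h.wd0 e (hs he)
      jq := fun e he => h.jq e (hs he)
      ex := fun e he => h.ex e (hs he)
      secc := h.secc.trans hm
      seca0 := fun e he => (h.seca0 e (hs he)).trans hm
      seca := fun e he => (h.seca e (hs he)).trans hm
      secq := fun e he => (h.secq e (hs he)).trans hm
      side := h.side.imp (fun h1 e he => h1 e (hs he)) (fun h1 e he => h1 e (hs he))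
      above := h.above.imp (fun h1 e he => h1 e (hs he)) (fun h1 e he => h1 e (hs he)) }

open Classical in
/-- **FLAG**: after dropping half of the pairs, a point sees few apexes through one window -/
theorem cher_flag (hV : JView K lam Q W I R) (hQ : lam ^ 5 ≤ #Q) (hKK : K ≤ K1)
    (h : Cher K1 lam Q W I R c w0 m0 Pr Wd) :
    ∃ Pr1 ⊆ Pr, Cher (2 * K1) lam Q W I R c w0 m0 Pr1 Wd ∧
      (∀ (q : Pt) (w : ℕ), lam ^ 2 * #{a ∈ Pr1.image Prod.fst | (a, q) ∈ Pr1 ∧ Wd (a, q) = w} ≤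
        2 * K ^ 2 * (1016 * K1 ^ 2) ^ 6 * #Q) ∧
      lam * #(Pr1.image Prod.fst) ≤ K * #Q ∧ (#Q : ℝ) ≤ 2 * K1 * lam * #(Pr1.image Prod.fst) := by
  have hK := hV.two
  have hK0 : 0 < K := by linarith
  have hK1 : 2 ≤ K1 := hK.trans hKK
  have hK10 : 0 < K1 := by linarith
  have hl := hV.one
  have hl0 : 0 < lam := by linarith
  have hQ1 : (1 : ℝ) ≤ #Q := le_trans (one_le_pow₀ hl) hQ
  have hQ0 : (0 : ℝ) < #Q := by linarith
  set g : Finset Pt := Pr.image Prod.fst with hg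
  set D : ℝ := 1016 * K1 ^ 2 with hD
  have hD1 : 1 ≤ D := by nlinarith
  have hD0 : 0 < D := by linarith
  have hgm : ∀ z ∈ g, ∃ e ∈ Pr, e.1 = z := fun z hz => by
    obtain ⟨e, he, rfl⟩ := mem_image.1 hz
    exact ⟨e, he, rfl⟩
  set M : ℕ := ⌈K * K * D ^ 6 * #Q / lam ^ 2⌉₊ with hM
  have hMpos : 0 < K * K * D ^ 6 * #Q / lam ^ 2 := by positivity
  have hM1 : 1 ≤ M := Nat.one_le_ceil_iff.2 hMpos
  have hMlow : K * K * D ^ 6 * #Q ≤ lam ^ 2 * M := by
    have := Nat.le_ceil (K * K * D ^ 6 * #Q / lam ^ 2)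
    rw [div_le_iff₀ (by positivity)] at this
    linarith
  have hMup : lam ^ 2 * M ≤ 2 * K ^ 2 * D ^ 6 * #Q := by
    have h1 : (M : ℝ) < K * K * D ^ 6 * #Q / lam ^ 2 + 1 := Nat.ceil_lt_add_one hMpos.le
    have h2 : lam ^ 2 * (M : ℝ) ≤ K * K * D ^ 6 * #Q + lam ^ 2 := by
      have : lam ^ 2 * (M : ℝ) ≤ lam ^ 2 * (K * K * D ^ 6 * #Q / lam ^ 2 + 1) := by gcongr
      refine this.trans (le_of_eq ?_)
      field_simp
    have h3 : lam ^ 2 ≤ #Q := le_trans (pow_le_pow_right₀ hl (by norm_num)) hQ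
    have h4 : 1 ≤ K * K * D ^ 6 := by
      have : 1 ≤ D ^ 6 := one_le_pow₀ hD1
      have : 1 ≤ K * K := by nlinarith
      nlinarith
    have h5 : (#Q : ℝ) ≤ K * K * D ^ 6 * #Q := by nlinarith
    nlinarith
  -- the group
  have hjc : ∀ z ∈ g, Jn I R w0 c z := fun z hz => by
    obtain ⟨e, he, rfl⟩ := hgm z hz
    exact h.jc e he
  have hgQ : g ⊆ Q := fun z hz => by
    obtain ⟨e, he, rfl⟩ := hgm z hz
    exact h.mem1 e he
  have hgR : g ⊆ R w0 := fun z hz => (hjc z hz).2.1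
  have hG := stGroup K lam Q W I R hV hQ c w0 m0 h.w0W h.m0I g Q
    (fun z hz => ⟨hgQ hz, (hjc z hz).2.2.2⟩)
    (h.side.imp (fun h1 z hz => by obtain ⟨e, he, rfl⟩ := hgm z hz; exact h1 e he)
      (fun h1 z hz => by obtain ⟨e, he, rfl⟩ := hgm z hz; exact h1 e he))
    Pr Wd
    (fun e he => ⟨mem_image_of_mem _ he, h.mem2 e he, h.wdW e he, h.wd0 e he, (h.jq e he).1,
      (h.jq e he).2.2.1, h.ex e he⟩) K (by linarith)
    (by
      intro z _ w hw
      refine le_trans ?_ (hV.cardR w hw)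
      have : #{b ∈ Q | (z, b) ∈ Pr ∧ Wd (z, b) = w} ≤ #(R w) := by
        apply card_le_card
        intro b hb
        obtain ⟨_, hb1, hb2⟩ := mem_filter.1 hb
        have := (h.jq _ hb1).2.1
        rwa [hb2] at this
      have h2 : (#{b ∈ Q | (z, b) ∈ Pr ∧ Wd (z, b) = w} : ℝ) ≤ #(R w) := by exact_mod_cast this
      gcongr) M D hM1 hD1 hMlow
  set B : Finset (Pt × Pt) := {e ∈ Pr | M ≤ #{z ∈ g | (z, e.2) ∈ Pr ∧ Wd (z, e.2) = Wd e}} with hB
  have hgc : lam * #g ≤ K * #Q := by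
    refine le_trans ?_ (hV.cardR w0 h.w0W)
    have : (#g : ℝ) ≤ #(R w0) := by exact_mod_cast card_le_card hgR
    gcongr
  -- the bad pairs are few
  have hBc : 4 * (#B : ℝ) ≤ #Pr := by
    have h1 : lam * (D * #B) ≤ 254 * K1 * #Q * #Q := by
      calc lam * (D * #B) ≤ lam * ((253 * #g + #{p ∈ Q | sl c p ∈ I w0}) * #Q) := by gcongr
        _ = (253 * (lam * #g) + lam * #{p ∈ Q | sl c p ∈ I w0}) * #Q := by ring
        _ ≤ (253 * (K1 * #Q) + K1 * #Q) * #Q := by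
            have : lam * (#g : ℝ) ≤ K1 * #Q := hgc.trans (by gcongr)
            have h2 := h.secc
            gcongr
        _ = 254 * K1 * #Q * #Q := by ring
    have h2 := h.card
    have h3 : lam * (D * #B) ≤ 254 * K1 * (K1 * lam * #Pr) := by
      calc lam * (D * #B) ≤ 254 * K1 * #Q * #Q := h1
        _ = 254 * K1 * (#Q : ℝ) ^ 2 := by ring
        _ ≤ 254 * K1 * (K1 * lam * #Pr) := by gcongr
    have h4 : (lam * (254 * K1 ^ 2)) * (4 * #B) ≤ (lam * (254 * K1 ^ 2)) * #Pr := by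
      calc (lam * (254 * K1 ^ 2)) * (4 * (#B : ℝ)) = lam * (D * #B) := by rw [hD]; ring
        _ ≤ 254 * K1 * (K1 * lam * #Pr) := h3
        _ = _ := by ring
    exact le_of_mul_le_mul_left h4 (by positivity)
  set Pr1 : Finset (Pt × Pt) := Pr \ B with hPr1
  have hsub : Pr1 ⊆ Pr := sdiff_subset
  have hPc : (#Pr : ℝ) ≤ 2 * #Pr1 := by
    have h1 : #Pr1 + #B = #Pr := card_sdiff_add_card_eq_card (filter_subset _ _)
    have h2 : (#Pr1 : ℝ) + #B = #Pr := by exact_mod_cast h1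
    have h3 : (0 : ℝ) ≤ #Pr1 := Nat.cast_nonneg _
    linarith
  have hcard1 : (#Q : ℝ) ^ 2 ≤ 2 * K1 * lam * #Pr1 := by
    calc (#Q : ℝ) ^ 2 ≤ K1 * lam * #Pr := h.card
      _ ≤ K1 * lam * (2 * #Pr1) := by gcongr
      _ = _ := by ring
  refine ⟨Pr1, hsub, cher_sub h (by linarith) hsub hcard1, ?_, ?_, ?_⟩
  · intro q w
    by_cases hex : ∃ a, (a, q) ∈ Pr1 ∧ Wd (a, q) = w
    · obtain ⟨a, ha1, ha2⟩ := hex
      obtain ⟨haP, haB⟩ := mem_sdiff.1 ha1
      have h1 : ¬ M ≤ #{z ∈ g | (z, q) ∈ Pr ∧ Wd (z, q) = w} := by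
        intro hc
        apply haB
        rw [hB, mem_filter]
        refine ⟨haP, ?_⟩
        simpa [ha2] using hc
      push Not at h1
      have h2 : #{a ∈ Pr1.image Prod.fst | (a, q) ∈ Pr1 ∧ Wd (a, q) = w} ≤ M := by
        refine le_trans (card_le_card ?_) h1.le
        intro b hb
        obtain ⟨hb1, hb2, hb3⟩ := mem_filter.1 hb
        exact mem_filter.2 ⟨mem_image_of_mem _ (hsub hb2), hsub hb2, hb3⟩
      calc lam ^ 2 * (#{a ∈ Pr1.image Prod.fst | (a, q) ∈ Pr1 ∧ Wd (a, q) = w} : ℝ)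
          ≤ lam ^ 2 * M := by
            have : (#{a ∈ Pr1.image Prod.fst | (a, q) ∈ Pr1 ∧ Wd (a, q) = w} : ℝ) ≤ M := by
              exact_mod_cast h2
            gcongr
        _ ≤ _ := hMup
    · have h0 : ({a ∈ Pr1.image Prod.fst | (a, q) ∈ Pr1 ∧ Wd (a, q) = w} : Finset Pt) = ∅ := by
        rw [Finset.eq_empty_iff_forall_notMem]
        intro a ha
        obtain ⟨_, ha1, ha2⟩ := mem_filter.1 ha
        exact hex ⟨a, ha1, ha2⟩
      rw [h0]
      simp only [card_empty, Nat.cast_zero, mul_zero]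
      positivity
  · have h1 : (#(Pr1.image Prod.fst) : ℝ) ≤ #g := by
      exact_mod_cast card_le_card (image_subset_image hsub)
    calc lam * (#(Pr1.image Prod.fst) : ℝ) ≤ lam * #g := by gcongr
      _ ≤ K * #Q := hgc
  · have h1 : #Pr1 ≤ #(Pr1.image Prod.fst) * #Q := by
      rw [← card_product]
      apply card_le_card
      intro e he
      exact mem_product.2 ⟨mem_image_of_mem _ he, h.mem2 e (hsub he)⟩
    have h2 : (#Pr1 : ℝ) ≤ #(Pr1.image Prod.fst) * #Q := by exact_mod_cast h1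
    have h3 : (#Q : ℝ) * #Q ≤ (2 * K1 * lam * #(Pr1.image Prod.fst)) * #Q := by
      calc (#Q : ℝ) * #Q = (#Q : ℝ) ^ 2 := by ring
        _ ≤ 2 * K1 * lam * #Pr1 := hcard1
        _ ≤ 2 * K1 * lam * (#(Pr1.image Prod.fst) * #Q) := by gcongr
        _ = _ := by ring
    exact le_of_mul_le_mul_right h3 hQ0

end Vale.Agent.P065.H930
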