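import Mathlib

/-!
# P065, upper bound, block [SEL]: selection of the two coordinate classes (helper930)

`V` = the apexes (classes), `Q` = the points, `E ⊆ V × Q` the joined pairs, `u a ≠ 0` the chart
abscissa of the class `a` (the fixed exact class, the centre, has abscissa `0`). There are two
classes `b ≠ c` such that many pairs `(a, q)` satisfy: `a`, `b`, `c` are joined to `q`, and the
cross ratio `u a (u b - u c) / (u c (u b - u a))` is between `1 / 2` and `2` in absolute value.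
-/

set_option autoImplicit false

namespace Vale.Agent.P065.H930

open Finset

/-- the cross ratio of `(0, b; c, a)`: with `rho p a = a / (p - a)` it is `rho b a / rho b c` -/
noncomputable def crr (b c a : ℝ) : ℝ := (a * (b - c)) / (c * (b - a))

/-- nondegenerate cross ratio -/
def Nice (b c a : ℝ) : Prop := 1 / 2 ≤ |crr b c a| ∧ |crr b c a| ≤ 2

lemma nice_of {s t : ℝ} (hs : s ≠ 0) (h1 : |s| ≤ 2 * |t|) (h2 : |t| ≤ 2 * |s|) :
    1 / 2 ≤ |t / s| ∧ |t / s| ≤ 2 := by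
  have hs' : 0 < |s| := abs_pos.2 hs
  rw [abs_div]
  constructor
  · rw [div_le_div_iff₀ (by norm_num) hs']; linarith
  · rw [div_le_iff₀ hs']; linarith

lemma three_abs {s t r : ℝ} (h : s + t + r = 0) :
    (|s| ≤ 2 * |t| ∧ |t| ≤ 2 * |s|) ∨ (|s| ≤ 2 * |r| ∧ |r| ≤ 2 * |s|) ∨
      (|t| ≤ 2 * |r| ∧ |r| ≤ 2 * |t|) := by
  have h1 : |s| ≤ |t| + |r| := by
    have : s = -(t + r) := by linarith
    rw [this, abs_neg]; exact abs_add_le t r
  have h2 : |t| ≤ |s| + |r| := by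
    have : t = -(s + r) := by linarith
    rw [this, abs_neg]; exact abs_add_le s r
  have h3 : |r| ≤ |s| + |t| := by
    have : r = -(s + t) := by linarith
    rw [this, abs_neg]; exact abs_add_le s t
  have p1 := abs_nonneg s
  have p2 := abs_nonneg t
  have p3 := abs_nonneg r
  rcases le_total |s| |t| with a | a <;> rcases le_total |s| |r| with b | b <;>
    rcases le_total |t| |r| with c | c
  · exact Or.inr (Or.inr ⟨by linarith, by linarith⟩)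
  · exact Or.inr (Or.inr ⟨by linarith, by linarith⟩)
  · exact Or.inl ⟨by linarith, by linarith⟩
  · exact Or.inl ⟨by linarith, by linarith⟩
  · exact Or.inr (Or.inl ⟨by linarith, by linarith⟩)
  · exact Or.inr (Or.inl ⟨by linarith, by linarith⟩)
  · exact Or.inr (Or.inl ⟨by linarith, by linarith⟩)
  · exact Or.inl ⟨by linarith, by linarith⟩

/-- one of the three pairings of `0, a, b, c` is nondegenerate -/
lemma nice_three {a b c : ℝ} (ha : a ≠ 0) (hb : b ≠ 0) (hac : a ≠ c) (hbc : b ≠ c) : Nice a b c ∨ Nice b a c ∨ Nice c a b := by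
  have e : a * (b - c) + b * (c - a) + c * (a - b) = 0 := by ring
  have q1 : a * (b - c) ≠ 0 := mul_ne_zero ha (sub_ne_zero.2 hbc)
  have q2 : b * (c - a) ≠ 0 := mul_ne_zero hb (sub_ne_zero.2 hac.symm)
  unfold Nice crr
  rcases three_abs e with ⟨h1, h2⟩ | ⟨h1, h2⟩ | ⟨h1, h2⟩
  · right; right
    have := nice_of q1 h1 h2
    have e2 : b * (c - a) / (a * (c - b)) = -(b * (c - a) / (a * (b - c))) := by
      rw [← div_neg]; congr 1; ring
    rw [e2, abs_neg]; exact this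
  · right; left
    have := nice_of q1 h1 h2
    have e2 : c * (b - a) / (a * (b - c)) = -(c * (a - b) / (a * (b - c))) := by
      rw [← neg_div]; congr 1; ring
    rw [e2, abs_neg]; exact this
  · left
    have := nice_of q2 h1 h2
    have e2 : c * (a - b) / (b * (a - c)) = -(c * (a - b) / (b * (c - a))) := by
      rw [← div_neg]; congr 1; ring
    rw [e2, abs_neg]; exact this

variable {α β : Type*}

/-- triples with a coincidence -/
lemma card_coinc [DecidableEq α] (D : Finset α) :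
    #((D ×ˢ D ×ˢ D).filter fun t => ¬ (t.1 ≠ t.2.1 ∧ t.1 ≠ t.2.2 ∧ t.2.1 ≠ t.2.2)) ≤
      3 * #D ^ 2 := by
  have h : ((D ×ˢ D ×ˢ D).filter fun t => ¬ (t.1 ≠ t.2.1 ∧ t.1 ≠ t.2.2 ∧ t.2.1 ≠ t.2.2)) ⊆
      ((D ×ˢ D).image fun p : α × α => (p.1, p.1, p.2)) ∪
      (((D ×ˢ D).image fun p : α × α => (p.1, p.2, p.1)) ∪
      ((D ×ˢ D).image fun p : α × α => (p.1, p.2, p.2))) := by
    rintro ⟨a, b, c⟩ ht
    simp only [mem_filter, mem_product, mem_union, mem_image, Prod.mk.injEq, Prod.exists] at ht ⊢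
    obtain ⟨⟨ha, hb, hc⟩, hn⟩ := ht
    by_cases h1 : a = b
    · left; exact ⟨a, c, ⟨ha, hc⟩, rfl, h1, rfl⟩
    · by_cases h2 : a = c
      · right; left; exact ⟨a, b, ⟨ha, hb⟩, rfl, rfl, h2⟩
      · right; right
        have h3 : b = c := by
          by_contra h3
          exact hn ⟨h1, h2, h3⟩
        exact ⟨a, b, ⟨ha, hb⟩, rfl, rfl, h3⟩
  have h2 : #(D ×ˢ D) = #D ^ 2 := by rw [card_product, sq]
  calc _ ≤ _ := card_le_card h
    _ ≤ #(D ×ˢ D) + (#(D ×ˢ D) + #(D ×ˢ D)) :=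
      (card_union_le _ _).trans (add_le_add card_image_le
        ((card_union_le _ _).trans (add_le_add card_image_le card_image_le)))
    _ = 3 * #D ^ 2 := by rw [h2]; ring

open Classical in
/-- in each neighbourhood a third of the ordered triples of distinct elements is nice -/
lemma card_nice (u : α → ℝ) (D : Finset α) (hinj : ∀ a ∈ D, ∀ b ∈ D, u a = u b → a = b)
    (h0 : ∀ a ∈ D, u a ≠ 0) :
    #((D ×ˢ D ×ˢ D).filter fun t => (t.1 ≠ t.2.1 ∧ t.1 ≠ t.2.2 ∧ t.2.1 ≠ t.2.2)) ≤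
      3 * #((D ×ˢ D ×ˢ D).filter fun t => (t.1 ≠ t.2.1 ∧ t.1 ≠ t.2.2 ∧ t.2.1 ≠ t.2.2) ∧
        Nice (u t.1) (u t.2.1) (u t.2.2)) := by
  set S := ((D ×ˢ D ×ˢ D).filter fun t : α × α × α =>
    (t.1 ≠ t.2.1 ∧ t.1 ≠ t.2.2 ∧ t.2.1 ≠ t.2.2)) with hS
  set G := ((D ×ˢ D ×ˢ D).filter fun t : α × α × α =>
    (t.1 ≠ t.2.1 ∧ t.1 ≠ t.2.2 ∧ t.2.1 ≠ t.2.2) ∧ Nice (u t.1) (u t.2.1) (u t.2.2)) with hG
  have hsub : S ⊆ G ∪ ((G.image fun t => (t.2.1, t.1, t.2.2)) ∪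
      (G.image fun t => (t.2.1, t.2.2, t.1))) := by
    rintro ⟨a, b, c⟩ ht
    simp only [hS, hG, mem_filter, mem_product, mem_union, mem_image, Prod.mk.injEq,
      Prod.exists] at ht ⊢
    obtain ⟨⟨ha, hb, hc⟩, hab, hac, hbc⟩ := ht
    rcases nice_three (h0 a ha) (h0 b hb) (fun h => hac (hinj a ha c hc h))
      (fun h => hbc (hinj b hb c hc h)) with h | h | h
    · left; exact ⟨⟨ha, hb, hc⟩, ⟨hab, hac, hbc⟩, h⟩
    · right; left
      exact ⟨b, a, c, ⟨⟨hb, ha, hc⟩, ⟨hab.symm, hbc, hac⟩, h⟩, rfl, rfl, rfl⟩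
    · right; right
      exact ⟨c, a, b, ⟨⟨hc, ha, hb⟩, ⟨hac.symm, hbc.symm, hab⟩, h⟩, rfl, rfl, rfl⟩
  calc #S ≤ _ := card_le_card hsub
    _ ≤ #G + (#G + #G) := (card_union_le _ _).trans (add_le_add le_rfl
        ((card_union_le _ _).trans (add_le_add card_image_le card_image_le)))
    _ = 3 * #G := by ring

open Classical in
/-- **SEL**. -/
theorem sel (V : Finset α) (Q : Finset β) (E : Finset (α × β)) (u : α → ℝ) (K : ℝ)
    (hK : 1 ≤ K) (hE : E ⊆ V ×ˢ Q) (hd : (#V : ℝ) * #Q ≤ K * #E) (hV : 12 * K ^ 3 ≤ #V)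
    (hinj : ∀ a ∈ V, ∀ b ∈ V, u a = u b → a = b) (h0 : ∀ a ∈ V, u a ≠ 0) :
    ∃ b ∈ V, ∃ c ∈ V, b ≠ c ∧ (#V : ℝ) * #Q ≤ 4 * K ^ 3 *
      #((V ×ˢ Q).filter fun p => p ∈ E ∧ (b, p.2) ∈ E ∧ (c, p.2) ∈ E ∧ p.1 ≠ b ∧ p.1 ≠ c ∧
        Nice (u b) (u c) (u p.1)) := by
  have hK0 : 0 < K := by linarith
  have hVpos : (0 : ℝ) < #V := by
    have : 0 < 12 * K ^ 3 := by positivity
    linarith
  -- two different elements of `V`, for the trivial case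
  have hV2 : ∃ b ∈ V, ∃ c ∈ V, b ≠ c := by
    have h1 : (12 : ℝ) ≤ #V := by
      have : (1 : ℝ) ≤ K ^ 3 := one_le_pow₀ hK
      linarith
    have h2 : 1 < #V := by
      have : (12 : ℕ) ≤ #V := by exact_mod_cast h1
      omega
    obtain ⟨b, hb, c, hc, hbc⟩ := Finset.one_lt_card.1 h2
    exact ⟨b, hb, c, hc, hbc⟩
  by_cases hQ : #Q = 0
  · obtain ⟨b, hb, c, hc, hbc⟩ := hV2
    refine ⟨b, hb, c, hc, hbc, ?_⟩
    rw [hQ]; simp only [Nat.cast_zero, mul_zero]; positivity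
  have hQpos : (0 : ℝ) < #Q := by
    have : 0 < #Q := Nat.pos_of_ne_zero hQ
    exact_mod_cast this
  set D : β → Finset α := fun q => V.filter fun a => (a, q) ∈ E with hD
  have hDV : ∀ q, D q ⊆ V := fun q => filter_subset _ _
  have hDc : ∀ q, (#(D q) : ℝ) ≤ #V := fun q => by exact_mod_cast card_le_card (hDV q)
  -- the degrees
  have hdeg : (#E : ℝ) = ∑ q ∈ Q, (#(D q) : ℝ) := by
    have : #E = ∑ q ∈ Q, #(D q) := by
      have h1 : #E = ∑ q ∈ Q, #(E.filter fun p => p.2 = q) :=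
        card_eq_sum_card_fiberwise (fun p hp => (mem_product.1 (hE hp)).2)
      rw [h1]
      refine sum_congr rfl fun q _ => ?_
      refine card_bij (fun p _ => p.1) ?_ ?_ ?_
      · rintro ⟨a, q'⟩ hp
        simp only [mem_filter] at hp
        obtain ⟨hp, rfl⟩ := hp
        exact mem_filter.2 ⟨(mem_product.1 (hE hp)).1, hp⟩
      · rintro ⟨a, q1⟩ h1 ⟨b, q2⟩ h2 h
        simp only [mem_filter] at h1 h2
        simp only at h
        rw [h, h1.2, h2.2]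
      · intro a ha
        refine ⟨(a, q), ?_, rfl⟩
        simp only [hD, mem_filter] at ha ⊢
        exact ⟨ha.2, trivial⟩
    rw [this]; push_cast; rfl
  -- power mean
  have hpm : (#V : ℝ) ^ 3 * #Q ≤ K ^ 3 * ∑ q ∈ Q, (#(D q) : ℝ) ^ 3 := by
    have h2 : (∑ q ∈ Q, (#(D q) : ℝ)) ^ (2 + 1) / (#Q : ℝ) ^ 2 ≤ ∑ q ∈ Q, (#(D q) : ℝ) ^ (2 + 1) :=
      pow_sum_div_card_le_sum_pow (fun q _ => Nat.cast_nonneg _) 2
    rw [div_le_iff₀ (by positivity), ← hdeg] at h2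
    have h3 : ((#V : ℝ) * #Q) ^ 3 ≤ (K * #E) ^ 3 := by gcongr
    have h4 : ((#V : ℝ) ^ 3 * #Q) * (#Q : ℝ) ^ 2 ≤
        (K ^ 3 * ∑ q ∈ Q, (#(D q) : ℝ) ^ 3) * (#Q : ℝ) ^ 2 := by
      calc ((#V : ℝ) ^ 3 * #Q) * (#Q : ℝ) ^ 2 = ((#V : ℝ) * #Q) ^ 3 := by ring
        _ ≤ (K * #E) ^ 3 := h3
        _ = K ^ 3 * (#E : ℝ) ^ (2 + 1) := by ring
        _ ≤ K ^ 3 * ((∑ q ∈ Q, (#(D q) : ℝ) ^ (2 + 1)) * (#Q : ℝ) ^ 2) := by gcongr
        _ = _ := by ring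
    exact le_of_mul_le_mul_right h4 (by positivity)
  -- the nice triples
  set G : β → Finset (α × α × α) := fun q => ((D q) ×ˢ (D q) ×ˢ (D q)).filter fun t =>
    (t.1 ≠ t.2.1 ∧ t.1 ≠ t.2.2 ∧ t.2.1 ≠ t.2.2) ∧ Nice (u t.1) (u t.2.1) (u t.2.2) with hG
  have hGq : ∀ q, (#(D q) : ℝ) ^ 3 ≤ 3 * #(G q) + 3 * (#V : ℝ) ^ 2 := by
    intro q
    have h1 := card_coinc (D q)
    have h2 := card_nice u (D q) (fun a ha b hb => hinj a (hDV q ha) b (hDV q hb))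
      (fun a ha => h0 a (hDV q ha))
    have h3 : #((D q) ×ˢ (D q) ×ˢ (D q)) = #(D q) ^ 3 := by
      rw [card_product, card_product]; ring
    have h4 := Finset.card_filter_add_card_filter_not (s := (D q) ×ˢ (D q) ×ˢ (D q))
      (fun t : α × α × α => (t.1 ≠ t.2.1 ∧ t.1 ≠ t.2.2 ∧ t.2.1 ≠ t.2.2))
    have h5 : #(D q) ^ 3 ≤ 3 * #(G q) + 3 * #(D q) ^ 2 := by
      rw [← h3, ← h4]
      exact add_le_add h2 h1
    have h6 : (#(D q) : ℝ) ^ 3 ≤ 3 * #(G q) + 3 * (#(D q) : ℝ) ^ 2 := by exact_mod_cast h5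
    have h7 : (#(D q) : ℝ) ^ 2 ≤ (#V : ℝ) ^ 2 := pow_le_pow_left₀ (Nat.cast_nonneg _) (hDc q) 2
    linarith
  have hGsum : (#V : ℝ) ^ 3 * #Q ≤ 4 * K ^ 3 * ∑ q ∈ Q, (#(G q) : ℝ) := by
    have h1 : ∑ q ∈ Q, (#(D q) : ℝ) ^ 3 ≤ 3 * ∑ q ∈ Q, (#(G q) : ℝ) + 3 * (#V : ℝ) ^ 2 * #Q := by
      calc ∑ q ∈ Q, (#(D q) : ℝ) ^ 3 ≤ ∑ q ∈ Q, (3 * (#(G q) : ℝ) + 3 * (#V : ℝ) ^ 2) :=
            sum_le_sum fun q _ => hGq q
        _ = _ := by
            rw [sum_add_distrib, ← mul_sum, sum_const, nsmul_eq_mul]; ring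
    have h2 : K ^ 3 * (3 * (#V : ℝ) ^ 2 * #Q) ≤ (1 / 4) * ((#V : ℝ) ^ 3 * #Q) := by
      have : K ^ 3 ≤ #V / 12 := by linarith
      calc K ^ 3 * (3 * (#V : ℝ) ^ 2 * #Q) ≤ (#V / 12) * (3 * (#V : ℝ) ^ 2 * #Q) := by gcongr
        _ = _ := by ring
    have h3 : (#V : ℝ) ^ 3 * #Q ≤ K ^ 3 * (3 * ∑ q ∈ Q, (#(G q) : ℝ)) +
        (1 / 4) * ((#V : ℝ) ^ 3 * #Q) := by
      calc (#V : ℝ) ^ 3 * #Q ≤ K ^ 3 * ∑ q ∈ Q, (#(D q) : ℝ) ^ 3 := hpm
        _ ≤ K ^ 3 * (3 * ∑ q ∈ Q, (#(G q) : ℝ) + 3 * (#V : ℝ) ^ 2 * #Q) := by gcongr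
        _ = K ^ 3 * (3 * ∑ q ∈ Q, (#(G q) : ℝ)) + K ^ 3 * (3 * (#V : ℝ) ^ 2 * #Q) := by ring
        _ ≤ _ := by linarith
    linarith
  -- average over the first two elements
  set Gt : Finset (Σ _ : β, α × α × α) := Q.sigma G with hGt
  have hGtc : (#Gt : ℝ) = ∑ q ∈ Q, (#(G q) : ℝ) := by
    rw [hGt, card_sigma]; push_cast; rfl
  set T : α × α → Finset (α × β) := fun bc => (V ×ˢ Q).filter fun p => p ∈ E ∧ (bc.1, p.2) ∈ E ∧
    (bc.2, p.2) ∈ E ∧ p.1 ≠ bc.1 ∧ p.1 ≠ bc.2 ∧ Nice (u bc.1) (u bc.2) (u p.1) with hT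
  have hmaps : ∀ t ∈ Gt, (t.2.1, t.2.2.1) ∈ V ×ˢ V := by
    rintro ⟨q, a, b, c⟩ ht
    simp only [hGt, hG, mem_sigma, mem_filter, mem_product] at ht
    exact mem_product.2 ⟨hDV q ht.2.1.1, hDV q ht.2.1.2.1⟩
  have hfib : (#Gt : ℝ) = ∑ bc ∈ V ×ˢ V, (#(Gt.filter fun t => (t.2.1, t.2.2.1) = bc) : ℝ) := by
    have := card_eq_sum_card_fiberwise (f := fun t : (Σ _ : β, α × α × α) => (t.2.1, t.2.2.1))
      (s := Gt) (t := V ×ˢ V) hmaps
    rw [this]; push_cast; rfl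
  have hfle : ∀ bc ∈ V ×ˢ V, #(Gt.filter fun t => (t.2.1, t.2.2.1) = bc) ≤
      if bc.1 ≠ bc.2 then #(T bc) else 0 := by
    rintro ⟨b, c⟩ _
    split_ifs with hbc
    · refine card_le_card_of_injOn (fun t => (t.2.2.2, t.1)) ?_ ?_
      · rintro ⟨q, x, y, z⟩ ht
        simp only [hGt, hG, hD, mem_sigma, mem_filter, mem_product, Prod.mk.injEq, coe_filter,
          Set.mem_ofPred_eq] at ht
        obtain ⟨⟨hq, ⟨⟨hx, hxE⟩, ⟨hy, hyE⟩, ⟨hz, hzE⟩⟩, ⟨hxy, hxz, hyz⟩, hn⟩, rfl, rfl⟩ := ht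
        simp only [hT, mem_filter, mem_product, mem_coe]
        exact ⟨⟨hz, hq⟩, hzE, hxE, hyE, hxz.symm, hyz.symm, hn⟩
      · rintro ⟨q, x, y, z⟩ ht ⟨q', x', y', z'⟩ ht' h
        simp only [Prod.mk.injEq, coe_filter, Set.mem_ofPred_eq] at ht ht' h
        obtain ⟨_, hx, hy⟩ := ht
        obtain ⟨_, hx', hy'⟩ := ht'
        obtain ⟨hz, hq⟩ := h
        subst hx hy hx' hy' hz hq
        rfl
    · rw [Nat.le_zero, card_eq_zero]
      refine filter_eq_empty_iff.2 ?_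
      rintro ⟨q, x, y, z⟩ ht h
      simp only [hGt, hG, mem_sigma, mem_filter, mem_product, Prod.mk.injEq] at ht h
      obtain ⟨rfl, rfl⟩ := h
      simp only [ne_eq, not_not] at hbc
      exact ht.2.2.1.1 hbc
  by_contra hcon
  push Not at hcon
  have hlt : ∀ bc ∈ V ×ˢ V, (#(Gt.filter fun t => (t.2.1, t.2.2.1) = bc) : ℝ) * (4 * K ^ 3) <
      (#V : ℝ) * #Q := by
    rintro ⟨b, c⟩ hbc
    have hb := (mem_product.1 hbc).1
    have hc := (mem_product.1 hbc).2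
    have h1 := hfle (b, c) hbc
    by_cases hne : b ≠ c
    · have h2 := hcon b hb c hc hne
      rw [if_pos hne] at h1
      have h3 : (#(Gt.filter fun t => (t.2.1, t.2.2.1) = (b, c)) : ℝ) ≤ #(T (b, c)) := by
        exact_mod_cast h1
      calc _ ≤ (#(T (b, c)) : ℝ) * (4 * K ^ 3) := by gcongr
        _ = 4 * K ^ 3 * #(T (b, c)) := by ring
        _ < _ := h2
    · rw [if_neg hne] at h1
      have h3 : #(Gt.filter fun t => (t.2.1, t.2.2.1) = (b, c)) = 0 := by omega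
      rw [h3]; simp only [Nat.cast_zero, zero_mul]; positivity
  have hVV : (V ×ˢ V).Nonempty := by
    obtain ⟨b, hb, c, hc, -⟩ := hV2
    exact ⟨(b, c), mem_product.2 ⟨hb, hc⟩⟩
  have hfin : (#Gt : ℝ) * (4 * K ^ 3) < (#V : ℝ) ^ 3 * #Q := by
    calc (#Gt : ℝ) * (4 * K ^ 3)
        = ∑ bc ∈ V ×ˢ V, (#(Gt.filter fun t => (t.2.1, t.2.2.1) = bc) : ℝ) * (4 * K ^ 3) := by
          rw [hfib, sum_mul]
      _ < ∑ bc ∈ V ×ˢ V, (#V : ℝ) * #Q := sum_lt_sum_of_nonempty hVV hlt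
      _ = _ := by
          rw [sum_const, card_product, nsmul_eq_mul]; push_cast; ring
  have := hGsum
  rw [← hGtc] at this
  linarith

/-- the cross ratio in terms of `rho p a = a / (p - a)` -/
theorem crr_eq {b c a : ℝ} (hc : c ≠ 0) (hbc : b ≠ c) (hba : b ≠ a) :
    crr b c a = (a / (b - a)) / (c / (b - c)) := by
  have h1 : b - c ≠ 0 := sub_ne_zero.2 hbc
  have h2 : b - a ≠ 0 := sub_ne_zero.2 hba
  unfold crr
  field_simp

end Vale.Agent.P065.H930
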